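import Vale.Agent.P148.R2.H172.N3a

/-!
# P148, row N3, part b: the law of the comb gates

`GateLaw`: `n` gates with explored hubs `Hub k` (stopping sets of the first colouring), hub events
`He k` in pairwise disjoint sets `HB k` of sites, corridor events `Ce k` (second colouring) in
pairwise disjoint sets `CB k`. `qw` is the law of the pair of colourings given all the events, and
`W c₁ c₂` the composite colouring. Functions of the composite colouring in a set `Z` only feel the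
gates which meet `Z` (`qe_local`, `qe_le`), and are independent when no gate meets both sets
(`qe_indep`).
-/

open Finset
open scoped Classical

namespace Vale.Agent.P148.R2.H172

open Vale.Agent.P148.R2.H953

set_option linter.unusedSectionVars false

/-! ### marginals and pairs -/

section marg

variable {V V' : Type*} [Fintype V] [Fintype V']

/-- Functions of the colours of some of the coins. -/
theorem ex_marg {e : V' → V} (he : Function.Injective e) (f : (V' → Bool) → ℝ) :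
    (ex fun σ : V → Bool => f (σ ∘ e)) = ex f := by
  classical
  set U : Set V := Set.range e with hU
  -- split the coins
  let eq : (V → Bool) ≃ (V' → Bool) × ({v : V // v ∉ U} → Bool) :=
    { toFun := fun σ => (σ ∘ e, fun v => σ v.1)
      invFun := fun p v => if h : v ∈ U then p.1 h.choose else p.2 ⟨v, h⟩
      left_inv := by
        intro σ
        funext v
        by_cases h : v ∈ U
        · simp only [h, dif_pos, Function.comp_apply]
          rw [h.choose_spec]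
        · simp only [h, dif_neg, not_false_eq_true]
      right_inv := by
        rintro ⟨a, b⟩
        refine Prod.ext ?_ ?_
        · funext i
          have h : e i ∈ U := ⟨i, rfl⟩
          simp only [Function.comp_apply, h, dif_pos]
          rw [he h.choose_spec]
        · funext v
          have h : v.1 ∉ U := v.2
          simp only [h, dif_neg, not_false_eq_true] }
  have hcard : Fintype.card V = Fintype.card V' + Fintype.card {v : V // v ∉ U} := by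
    have h1 : Fintype.card (V → Bool) = Fintype.card ((V' → Bool) × ({v : V // v ∉ U} → Bool)) :=
      Fintype.card_congr eq
    rw [Fintype.card_prod, Fintype.card_fun, Fintype.card_fun, Fintype.card_fun,
      Fintype.card_bool, ← pow_add] at h1
    exact Nat.pow_right_injective (le_refl 2) h1
  unfold ex
  have h2 : ∑ σ : V → Bool, f (σ ∘ e) =
      ∑ p : (V' → Bool) × ({v : V // v ∉ U} → Bool), f p.1 :=
    Fintype.sum_equiv eq _ _ fun σ => rfl
  rw [h2, Fintype.sum_prod_type]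
  simp only [sum_const, card_univ, Fintype.card_fun, Fintype.card_bool, nsmul_eq_mul]
  rw [← Finset.mul_sum, hcard, pow_add]
  push_cast
  rw [mul_comm, mul_div_mul_right _ _ (by positivity)]

theorem pr_marg {e : V' → V} (he : Function.Injective e) (p : (V' → Bool) → Prop) :
    (pr fun σ : V → Bool => p (σ ∘ e)) = pr p :=
  ex_marg he fun σ => if p σ then 1 else 0

/-- Mean over two independent fair colourings. -/
noncomputable def ex2 (f : (V → Bool) → (V → Bool) → ℝ) : ℝ := ex fun c₁ => ex fun c₂ => f c₁ c₂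

/-- A pair of colourings as one colouring of `V ⊕ V`. -/
theorem ex_pair (f : (V → Bool) → (V → Bool) → ℝ) :
    (ex fun σ : V ⊕ V → Bool => f (σ ∘ Sum.inl) (σ ∘ Sum.inr)) = ex2 f := by
  have h1 : ∑ σ : V ⊕ V → Bool, f (σ ∘ Sum.inl) (σ ∘ Sum.inr) =
      ∑ p : (V → Bool) × (V → Bool), f p.1 p.2 :=
    Fintype.sum_equiv (Equiv.sumArrowEquivProdArrow V V Bool) _ _ fun σ => rfl
  have h2 : ex2 f = (∑ p : (V → Bool) × (V → Bool), f p.1 p.2) /
      (2 ^ Fintype.card V * 2 ^ Fintype.card V) := by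
    unfold ex2 ex
    dsimp only
    rw [Fintype.sum_prod_type, ← sum_div, div_div]
  rw [h2, ← h1]
  unfold ex
  rw [Fintype.card_sum, pow_add]
  congr 1
  refine Finset.sum_congr (Finset.ext fun x => ?_) fun _ _ => rfl
  exact ⟨fun _ => @Finset.mem_univ _ (_) x, fun _ => @Finset.mem_univ _ (_) x⟩

end marg

/-! ### the law -/

/-- Gates with hub events and corridor events. -/
structure GateLaw (V : Type*) [Fintype V] where
  n : ℕ
  Hub : ℕ → (V → Bool) → Set V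
  HB : ℕ → Set V
  CB : ℕ → Set V
  He : ℕ → (V → Bool) → Prop
  Ce : ℕ → (V → Bool) → Prop
  stop : ∀ k < n, IsStop (Hub k)
  heOn : ∀ k < n, On (HB k) (He k)
  ceOn : ∀ k < n, On (CB k) (Ce k)
  sub : ∀ k < n, ∀ σ, He k σ → Hub k σ ⊆ HB k
  dH : ∀ j < n, ∀ k < n, j ≠ k → Disjoint (HB j) (HB k)
  dC : ∀ j < n, ∀ k < n, j ≠ k → Disjoint (CB j) (CB k)

namespace GateLaw

variable {V : Type*} [Fintype V] (g : GateLaw V)

/-- All events. -/
def A0 (c₁ c₂ : V → Bool) : Prop := ∀ k < g.n, g.He k c₁ ∧ g.Ce k c₂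

/-- The composite colouring with the hubs of the gates in `t`. -/
noncomputable def W (t : Finset ℕ) (c₁ c₂ : V → Bool) : V → Bool :=
  glue (⋃ k ∈ t, g.Hub k c₁) c₁ c₂

/-- The composite colouring. -/
noncomputable def w (c₁ c₂ : V → Bool) : V → Bool := g.W (range g.n) c₁ c₂

/-- The coins of the events. -/
def S : ℕ ⊕ ℕ → Set (V ⊕ V) := Sum.elim (fun k => Sum.inl '' g.HB k) fun k => Sum.inr '' g.CB k

/-- The events. -/
def ev : ℕ ⊕ ℕ → (V ⊕ V → Bool) → Prop :=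
  Sum.elim (fun k σ => g.He k (σ ∘ Sum.inl)) fun k σ => g.Ce k (σ ∘ Sum.inr)

theorem ev_on {t : Finset ℕ} (ht : t ⊆ range g.n) :
    ∀ e ∈ t.disjSum t, On (g.S e) (g.ev e) := by
  rintro (k | k) he σ ρ h
  · have hk : k < g.n := mem_range.1 (ht (inl_mem_disjSum.1 he))
    exact g.heOn k hk _ _ fun v hv => h _ (Set.mem_image_of_mem _ hv)
  · have hk : k < g.n := mem_range.1 (ht (inr_mem_disjSum.1 he))
    exact g.ceOn k hk _ _ fun v hv => h _ (Set.mem_image_of_mem _ hv)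

theorem disj_inl_inr (P Q : Set V) :
    Disjoint ((Sum.inl : V → V ⊕ V) '' P) ((Sum.inr : V → V ⊕ V) '' Q) := by
  rw [Set.disjoint_left]
  rintro _ ⟨a, -, rfl⟩ ⟨b, -, hb⟩
  exact Sum.inr_ne_inl hb

theorem disj_inl {P Q : Set V} (h : Disjoint P Q) :
    Disjoint ((Sum.inl : V → V ⊕ V) '' P) ((Sum.inl : V → V ⊕ V) '' Q) :=
  (Set.disjoint_image_iff Sum.inl_injective).2 h

theorem disj_inr {P Q : Set V} (h : Disjoint P Q) :
    Disjoint ((Sum.inr : V → V ⊕ V) '' P) ((Sum.inr : V → V ⊕ V) '' Q) :=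
  (Set.disjoint_image_iff Sum.inr_injective).2 h

theorem ev_disj {t : Finset ℕ} (ht : t ⊆ range g.n) :
    ((t.disjSum t : Finset (ℕ ⊕ ℕ)) : Set (ℕ ⊕ ℕ)).PairwiseDisjoint g.S := by
  rintro (j | j) hj (k | k) hk hjk
  · have hj' := mem_range.1 (ht (inl_mem_disjSum.1 (mem_coe.1 hj)))
    have hk' := mem_range.1 (ht (inl_mem_disjSum.1 (mem_coe.1 hk)))
    exact disj_inl (g.dH j hj' k hk' fun h => hjk (by rw [h]))
  · exact disj_inl_inr _ _
  · exact (disj_inl_inr _ _).symm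
  · have hj' := mem_range.1 (ht (inr_mem_disjSum.1 (mem_coe.1 hj)))
    have hk' := mem_range.1 (ht (inr_mem_disjSum.1 (mem_coe.1 hk)))
    exact disj_inr (g.dC j hj' k hk' fun h => hjk (by rw [h]))

theorem all_iff (t : Finset ℕ) (σ : V ⊕ V → Bool) : All (t.disjSum t) g.ev σ ↔
    ∀ k ∈ t, g.He k (σ ∘ Sum.inl) ∧ g.Ce k (σ ∘ Sum.inr) := by
  unfold All
  constructor
  · intro h k hk
    exact ⟨h (Sum.inl k) (inl_mem_disjSum.2 hk), h (Sum.inr k) (inr_mem_disjSum.2 hk)⟩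
  · rintro h (k | k) hk
    · exact (h k (inl_mem_disjSum.1 hk)).1
    · exact (h k (inr_mem_disjSum.1 hk)).2

theorem all_iff_A0 (σ : V ⊕ V → Bool) : All ((range g.n).disjSum (range g.n)) g.ev σ ↔
    g.A0 (σ ∘ Sum.inl) (σ ∘ Sum.inr) := by
  rw [all_iff]
  unfold A0
  simp only [mem_range]

/-- The mean under the law of the pair `(c₁, c₂)` given all the events. -/
noncomputable def qe (f : (V → Bool) → (V → Bool) → ℝ) : ℝ :=
  cex (All ((range g.n).disjSum (range g.n)) g.ev) fun σ => f (σ ∘ Sum.inl) (σ ∘ Sum.inr)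

theorem pr_ev_inl (k : ℕ) : pr (g.ev (Sum.inl k)) = pr (g.He k) :=
  pr_marg (V := V ⊕ V) Sum.inl_injective (g.He k)

theorem pr_ev_inr (k : ℕ) : pr (g.ev (Sum.inr k)) = pr (g.Ce k) :=
  pr_marg (V := V ⊕ V) Sum.inr_injective (g.Ce k)

/-- The probability of all the events is a product. -/
theorem pr_all_eq {t : Finset ℕ} (ht : t ⊆ range g.n) :
    pr (All (t.disjSum t) g.ev) = (∏ k ∈ t, pr (g.He k)) * ∏ k ∈ t, pr (g.Ce k) := by
  rw [pr_all _ (g.ev_disj ht) (g.ev_on ht), prod_disjSum]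
  simp only [pr_ev_inl, pr_ev_inr]

theorem pr_A0 : (ex2 fun c₁ c₂ => if g.A0 c₁ c₂ then 1 else 0) =
    (∏ k ∈ range g.n, pr (g.He k)) * ∏ k ∈ range g.n, pr (g.Ce k) := by
  rw [← ex_pair, ← g.pr_all_eq (le_refl _)]
  refine ex_congr fun σ => ?_
  rw [if_congr (g.all_iff_A0 σ).symm rfl rfl]

theorem qe_eq (f : (V → Bool) → (V → Bool) → ℝ) : g.qe f =
    (ex2 fun c₁ c₂ => if g.A0 c₁ c₂ then f c₁ c₂ else 0) /
      (ex2 fun c₁ c₂ => if g.A0 c₁ c₂ then 1 else 0) := by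
  unfold qe cex
  rw [← ex_pair, g.pr_A0, ← g.pr_all_eq (le_refl _)]
  congr 1
  refine ex_congr fun σ => ?_
  rw [if_congr (g.all_iff_A0 σ).symm rfl rfl]

/-- The weight of the law. -/
noncomputable def L (c₁ c₂ : V → Bool) : ℝ :=
  if g.A0 c₁ c₂ then ((∏ k ∈ range g.n, pr (g.He k)) * ∏ k ∈ range g.n, pr (g.Ce k))⁻¹ else 0

theorem qe_eq_L (f : (V → Bool) → (V → Bool) → ℝ) :
    g.qe f = ex2 fun c₁ c₂ => g.L c₁ c₂ * f c₁ c₂ := by
  rw [qe_eq, pr_A0, div_eq_inv_mul]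
  unfold ex2
  rw [← ex_smul]
  refine ex_congr fun c₁ => ?_
  rw [← ex_smul]
  refine ex_congr fun c₂ => ?_
  dsimp only
  unfold L
  split_ifs <;> simp

theorem L_nonneg (c₁ c₂ : V → Bool) : 0 ≤ g.L c₁ c₂ := by
  unfold L
  split_ifs
  · exact inv_nonneg.2 (mul_nonneg (prod_nonneg fun _ _ => pr_nonneg _)
      (prod_nonneg fun _ _ => pr_nonneg _))
  · exact le_rfl

section bounds

variable {c : ℝ} (hc : 0 < c) (hH : ∀ k < g.n, c ≤ pr (g.He k)) (hC : ∀ k < g.n, c ≤ pr (g.Ce k))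

include hc hH hC

theorem pow_le_pr {t : Finset ℕ} (ht : t ⊆ range g.n) :
    c ^ (2 * t.card) ≤ pr (All (t.disjSum t) g.ev) := by
  have := pow_le_pr_all (t.disjSum t) (g.ev_disj ht) (g.ev_on ht) hc.le (by
    rintro (k | k) hk
    · rw [pr_ev_inl]; exact hH k (mem_range.1 (ht (inl_mem_disjSum.1 hk)))
    · rw [pr_ev_inr]; exact hC k (mem_range.1 (ht (inr_mem_disjSum.1 hk))))
  rwa [card_disjSum, ← two_mul] at this

theorem pr_pos : 0 < pr (All ((range g.n).disjSum (range g.n)) g.ev) :=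
  lt_of_lt_of_le (by positivity) (g.pow_le_pr hc hH hC (le_refl _))

theorem L_le (c₁ c₂ : V → Bool) : g.L c₁ c₂ ≤ (c ^ (2 * g.n))⁻¹ := by
  unfold L
  split_ifs
  · rw [← g.pr_all_eq (le_refl _)]
    have h := g.pow_le_pr hc hH hC (le_refl _)
    rw [card_range] at h
    exact inv_anti₀ (by positivity) h
  · positivity

theorem ex_L : (ex2 fun c₁ c₂ => g.L c₁ c₂) = 1 := by
  have h := g.qe_eq_L fun _ _ => 1
  simp only [mul_one] at h
  rw [← h]
  exact cex_const (g.pr_pos hc hH hC).ne' 1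

theorem qe_const (a : ℝ) : g.qe (fun _ _ => a) = a := cex_const (g.pr_pos hc hH hC).ne' a

end bounds

theorem qe_mono {f f' : (V → Bool) → (V → Bool) → ℝ}
    (h : ∀ c₁ c₂, g.A0 c₁ c₂ → f c₁ c₂ ≤ f' c₁ c₂) : g.qe f ≤ g.qe f' :=
  cex_mono fun σ hσ => h _ _ ((g.all_iff_A0 σ).1 hσ)

theorem qe_congr {f f' : (V → Bool) → (V → Bool) → ℝ}
    (h : ∀ c₁ c₂, g.A0 c₁ c₂ → f c₁ c₂ = f' c₁ c₂) : g.qe f = g.qe f' :=
  cex_congr fun σ hσ => h _ _ ((g.all_iff_A0 σ).1 hσ)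

theorem qe_nonneg {f : (V → Bool) → (V → Bool) → ℝ} (h : ∀ c₁ c₂, 0 ≤ f c₁ c₂) : 0 ≤ g.qe f :=
  cex_nonneg fun _ _ => h _ _

theorem qe_add (f f' : (V → Bool) → (V → Bool) → ℝ) :
    g.qe (fun c₁ c₂ => f c₁ c₂ + f' c₁ c₂) = g.qe f + g.qe f' := cex_add _ _ _

theorem qe_smul (a : ℝ) (f : (V → Bool) → (V → Bool) → ℝ) :
    g.qe (fun c₁ c₂ => a * f c₁ c₂) = a * g.qe f := cex_smul _ _ _

theorem qe_sum {ι : Type*} (s : Finset ι) (f : ι → (V → Bool) → (V → Bool) → ℝ) :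
    g.qe (fun c₁ c₂ => ∑ i ∈ s, f i c₁ c₂) = ∑ i ∈ s, g.qe (f i) := cex_sum _ _ _

/-! ### locality of the composite colouring -/

/-- `t` contains the gates which touch `Z`. -/
def Touch (Z : Set V) (t : Finset ℕ) : Prop :=
  t ⊆ range g.n ∧ ∀ k < g.n, k ∉ t → Disjoint (g.HB k) Z ∧ Disjoint (g.CB k) Z

theorem stop_hubs {t : Finset ℕ} (ht : t ⊆ range g.n) :
    IsStop fun σ => ⋃ k ∈ t, g.Hub k σ := by
  intro σ ρ h
  dsimp only
  refine Set.iUnion₂_congr fun k hk => ?_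
  exact g.stop k (mem_range.1 (ht hk)) σ ρ
    (h.mono (Set.subset_biUnion_of_mem (u := fun k => g.Hub k σ) hk))

theorem w_eq_W {Z : Set V} {t : Finset ℕ} (hZ : g.Touch Z t) {c₁ c₂ : V → Bool}
    (h : g.A0 c₁ c₂) {v : V} (hv : v ∈ Z) : g.w c₁ c₂ v = g.W t c₁ c₂ v := by
  have key : v ∈ (⋃ k ∈ range g.n, g.Hub k c₁) ↔ v ∈ ⋃ k ∈ t, g.Hub k c₁ := by
    simp only [Set.mem_iUnion, exists_prop]
    constructor
    · rintro ⟨k, hk, hvk⟩
      refine ⟨k, ?_, hvk⟩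
      by_contra hkt
      have h1 := g.sub k (mem_range.1 hk) c₁ (h k (mem_range.1 hk)).1 hvk
      exact Set.disjoint_left.1 (hZ.2 k (mem_range.1 hk) hkt).1 h1 hv
    · rintro ⟨k, hk, hvk⟩
      exact ⟨k, hZ.1 hk, hvk⟩
  unfold w W
  by_cases hm : v ∈ ⋃ k ∈ t, g.Hub k c₁
  · rw [glue_mem hm, glue_mem (key.2 hm)]
  · rw [glue_not_mem hm, glue_not_mem fun h => hm (key.1 h)]

/-- The support of a function of the composite colouring in `Z`. -/
def supp (Z : Set V) (t : Finset ℕ) : Set (V ⊕ V) :=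
  (⋃ k ∈ t, Sum.inl '' g.HB k) ∪ Sum.inr '' Z

/-- The truncated function. -/
noncomputable def tr {β : Type*} [Zero β] (t : Finset ℕ) (F : (V → Bool) → β)
    (σ : V ⊕ V → Bool) : β :=
  if ∀ k ∈ t, g.He k (σ ∘ Sum.inl) then F (g.W t (σ ∘ Sum.inl) (σ ∘ Sum.inr)) else 0

theorem tr_on {β : Type*} [Zero β] {Z : Set V} {t : Finset ℕ} (ht : t ⊆ range g.n)
    {F : (V → Bool) → β} (hF : On Z F) : On (g.supp Z t) (g.tr t F) := by
  intro σ ρ h
  have h1 : ∀ k ∈ t, Agree (g.HB k) (σ ∘ Sum.inl) (ρ ∘ Sum.inl) := fun k hk v hv =>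
    h _ (Or.inl (Set.mem_biUnion (x := k) hk (Set.mem_image_of_mem _ hv)))
  have h2 : ∀ k ∈ t, g.He k (ρ ∘ Sum.inl) = g.He k (σ ∘ Sum.inl) := fun k hk =>
    g.heOn k (mem_range.1 (ht hk)) _ _ (h1 k hk)
  have h3 : (∀ k ∈ t, g.He k (ρ ∘ Sum.inl)) ↔ ∀ k ∈ t, g.He k (σ ∘ Sum.inl) :=
    forall₂_congr fun k hk => by rw [h2 k hk]
  unfold tr
  by_cases hg : ∀ k ∈ t, g.He k (σ ∘ Sum.inl)
  · rw [if_pos hg, if_pos (h3.2 hg)]
    refine hF _ _ fun v hv => ?_
    have h4 : ∀ k ∈ t, g.Hub k (ρ ∘ Sum.inl) = g.Hub k (σ ∘ Sum.inl) := fun k hk =>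
      g.stop k (mem_range.1 (ht hk)) _ _
        ((h1 k hk).mono (g.sub k (mem_range.1 (ht hk)) _ (hg k hk)))
    have h5 : (⋃ k ∈ t, g.Hub k (ρ ∘ Sum.inl)) = ⋃ k ∈ t, g.Hub k (σ ∘ Sum.inl) :=
      Set.iUnion₂_congr h4
    unfold W
    rw [h5]
    by_cases hm : v ∈ ⋃ k ∈ t, g.Hub k (σ ∘ Sum.inl)
    · rw [glue_mem hm, glue_mem hm]
      obtain ⟨k, hk, hvk⟩ : ∃ k ∈ t, v ∈ g.Hub k (σ ∘ Sum.inl) := by
        simpa only [Set.mem_iUnion, exists_prop] using hm
      exact h1 k hk v (g.sub k (mem_range.1 (ht hk)) _ (hg k hk) hvk)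
    · rw [glue_not_mem hm, glue_not_mem hm]
      exact h _ (Or.inr (Set.mem_image_of_mem _ hv))
  · rw [if_neg hg, if_neg fun h => hg (h3.1 h)]

theorem w_eq_tr {β : Type*} [Zero β] {Z : Set V} {t : Finset ℕ} (hZ : g.Touch Z t)
    {F : (V → Bool) → β} (hF : On Z F) {σ : V ⊕ V → Bool}
    (h : g.A0 (σ ∘ Sum.inl) (σ ∘ Sum.inr)) :
    F (g.w (σ ∘ Sum.inl) (σ ∘ Sum.inr)) = g.tr t F σ := by
  unfold tr
  rw [if_pos fun k hk => (h k (mem_range.1 (hZ.1 hk))).1]
  exact hF _ _ fun v hv => g.w_eq_W hZ h hv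

theorem supp_disj {Z : Set V} {t : Finset ℕ} (hZ : g.Touch Z t) {t' : Finset ℕ}
    (ht' : t' ⊆ range g.n) (htt : Disjoint t t') : ∀ e ∈ t'.disjSum t', Disjoint (g.S e) (g.supp Z t) := by
  rintro (k | k) hk
  · have hk' := inl_mem_disjSum.1 hk
    unfold supp
    rw [Set.disjoint_union_right]
    refine ⟨?_, disj_inl_inr _ _⟩
    rw [Set.disjoint_iUnion₂_right]
    intro j hj
    refine disj_inl (g.dH k (mem_range.1 (ht' hk')) j (mem_range.1 (hZ.1 hj)) ?_)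
    rintro rfl
    exact disjoint_left.1 htt hj hk'
  · have hk' := inr_mem_disjSum.1 hk
    unfold supp
    rw [Set.disjoint_union_right]
    refine ⟨?_, disj_inr (hZ.2 k (mem_range.1 (ht' hk')) fun h => disjoint_left.1 htt h hk').2⟩
    rw [Set.disjoint_iUnion₂_right]
    exact fun j _ => (disj_inl_inr _ _).symm

section bounds

variable {c : ℝ} (hc : 0 < c) (hH : ∀ k < g.n, c ≤ pr (g.He k)) (hC : ∀ k < g.n, c ≤ pr (g.Ce k))

include hc hH hC

/-- **Local means.** -/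
theorem qe_local {Z : Set V} {t : Finset ℕ} (hZ : g.Touch Z t) {F : (V → Bool) → ℝ}
    (hF : On Z F) : g.qe (fun c₁ c₂ => F (g.w c₁ c₂)) = cex (All (t.disjSum t) g.ev) (g.tr t F) := by
  have h1 : g.qe (fun c₁ c₂ => F (g.w c₁ c₂)) =
      cex (All ((range g.n).disjSum (range g.n)) g.ev) (g.tr t F) :=
    cex_congr fun σ hσ => g.w_eq_tr hZ hF ((g.all_iff_A0 σ).1 hσ)
  rw [h1]
  refine cex_local _ _ ?_ (g.ev_disj (le_refl _)) (g.ev_on (le_refl _)) ?_ (g.tr_on hZ.1 hF) ?_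
  · rintro (k | k) hk
    · exact inl_mem_disjSum.2 (hZ.1 (inl_mem_disjSum.1 hk))
    · exact inr_mem_disjSum.2 (hZ.1 (inr_mem_disjSum.1 hk))
  · rintro (k | k) hk
    · rw [pr_ev_inl]
      exact (lt_of_lt_of_le hc (hH k (mem_range.1 (inl_mem_disjSum.1 hk)))).ne'
    · rw [pr_ev_inr]
      exact (lt_of_lt_of_le hc (hC k (mem_range.1 (inr_mem_disjSum.1 hk)))).ne'
  · intro e he het
    refine g.supp_disj hZ (t' := range g.n \ t) sdiff_subset disjoint_sdiff e ?_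
    rcases e with k | k
    · exact inl_mem_disjSum.2 (mem_sdiff.2 ⟨inl_mem_disjSum.1 he, fun h =>
        het (inl_mem_disjSum.2 h)⟩)
    · exact inr_mem_disjSum.2 (mem_sdiff.2 ⟨inr_mem_disjSum.1 he, fun h =>
        het (inr_mem_disjSum.2 h)⟩)

/-- Explicit form of the local mean. -/
theorem qe_local' {Z : Set V} {t : Finset ℕ} (hZ : g.Touch Z t) {F : (V → Bool) → ℝ}
    (hF : On Z F) : g.qe (fun c₁ c₂ => F (g.w c₁ c₂)) =
      (ex2 fun c₁ c₂ => if ∀ k ∈ t, g.He k c₁ ∧ g.Ce k c₂ then F (g.W t c₁ c₂) else 0) /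
        ((∏ k ∈ t, pr (g.He k)) * ∏ k ∈ t, pr (g.Ce k)) := by
  rw [g.qe_local hc hH hC hZ hF, ← g.pr_all_eq hZ.1, ← ex_pair]
  unfold cex
  congr 1
  refine ex_congr fun σ => ?_
  by_cases h : All (t.disjSum t) g.ev σ
  · rw [if_pos h, if_pos ((g.all_iff t σ).1 h)]
    unfold tr
    rw [if_pos fun k hk => ((g.all_iff t σ).1 h k hk).1]
  · rw [if_neg h, if_neg fun h' => h ((g.all_iff t σ).2 h')]

/-- **Ratio bound.** A nonnegative function of the composite colouring in `Z`. -/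
theorem qe_le {Z : Set V} {t : Finset ℕ} (hZ : g.Touch Z t) {F : (V → Bool) → ℝ}
    (hF : On Z F) (hF0 : ∀ σ, 0 ≤ F σ) :
    g.qe (fun c₁ c₂ => F (g.w c₁ c₂)) ≤ (c ^ (2 * t.card))⁻¹ * ex F := by
  rw [g.qe_local hc hH hC hZ hF]
  refine (cex_le (fun σ => ?_) (by positivity) (g.pow_le_pr hc hH hC hZ.1)).trans ?_
  · unfold tr
    split_ifs
    · exact hF0 _
    · exact le_rfl
  · refine mul_le_mul_of_nonneg_left ?_ (by positivity)
    rw [← mx_fair (g.stop_hubs hZ.1) F]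
    have h1 := ex_pair (V := V) fun c₁ c₂ => F (g.W t c₁ c₂)
    unfold ex2 at h1
    refine le_trans (ex_mono fun σ => ?_) h1.le
    unfold tr
    split_ifs
    · exact le_rfl
    · exact hF0 _

/-- **Independence.** -/
theorem qe_indep {Z Z' : Set V} {t t' : Finset ℕ} (hZ : g.Touch Z t)
    (hZ' : g.Touch Z' t') (htt : Disjoint t t') (hZZ : Disjoint Z Z') {F : (V → Bool) → ℝ}
    {G : (V → Bool) → ℝ} (hF : On Z F) (hG : On Z' G) :
    g.qe (fun c₁ c₂ => F (g.w c₁ c₂) * G (g.w c₁ c₂)) =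
      g.qe (fun c₁ c₂ => F (g.w c₁ c₂)) * g.qe (fun c₁ c₂ => G (g.w c₁ c₂)) := by
  have e1 : g.qe (fun c₁ c₂ => F (g.w c₁ c₂) * G (g.w c₁ c₂)) =
      cex (All ((range g.n).disjSum (range g.n)) g.ev) (fun σ => g.tr t F σ * g.tr t' G σ) :=
    cex_congr fun σ hσ => by
      dsimp only
      rw [g.w_eq_tr hZ hF ((g.all_iff_A0 σ).1 hσ), g.w_eq_tr hZ' hG ((g.all_iff_A0 σ).1 hσ)]
  have e2 : g.qe (fun c₁ c₂ => F (g.w c₁ c₂)) =
      cex (All ((range g.n).disjSum (range g.n)) g.ev) (g.tr t F) :=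
    cex_congr fun σ hσ => g.w_eq_tr hZ hF ((g.all_iff_A0 σ).1 hσ)
  have e3 : g.qe (fun c₁ c₂ => G (g.w c₁ c₂)) =
      cex (All ((range g.n).disjSum (range g.n)) g.ev) (g.tr t' G) :=
    cex_congr fun σ hσ => g.w_eq_tr hZ' hG ((g.all_iff_A0 σ).1 hσ)
  rw [e1, e2, e3]
  refine cex_mul _ (g.ev_disj (le_refl _)) (g.ev_on (le_refl _)) (g.tr_on hZ.1 hF)
    (g.tr_on hZ'.1 hG) ?_ ?_
  · unfold supp
    rw [Set.disjoint_union_left, Set.disjoint_union_right, Set.disjoint_union_right]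
    refine ⟨⟨?_, ?_⟩, ?_, disj_inr hZZ⟩
    · rw [Set.disjoint_iUnion₂_left]
      intro j hj
      rw [Set.disjoint_iUnion₂_right]
      intro k hk
      refine disj_inl (g.dH j (mem_range.1 (hZ.1 hj)) k (mem_range.1 (hZ'.1 hk)) ?_)
      rintro rfl
      exact disjoint_left.1 htt hj hk
    · rw [Set.disjoint_iUnion₂_left]
      exact fun j _ => disj_inl_inr _ _
    · rw [Set.disjoint_iUnion₂_right]
      exact fun j _ => (disj_inl_inr _ _).symm
  · rintro (k | k) hk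
    · have hk' := mem_range.1 (inl_mem_disjSum.1 hk)
      by_cases hkt : k ∈ t
      · exact Or.inr (g.supp_disj hZ' (t' := t) hZ.1 htt.symm _ (inl_mem_disjSum.2 hkt))
      · refine Or.inl (g.supp_disj hZ (t' := range g.n \ t) sdiff_subset disjoint_sdiff _ ?_)
        exact inl_mem_disjSum.2 (mem_sdiff.2 ⟨mem_range.2 hk', hkt⟩)
    · have hk' := mem_range.1 (inr_mem_disjSum.1 hk)
      by_cases hkt : k ∈ t
      · exact Or.inr (g.supp_disj hZ' (t' := t) hZ.1 htt.symm _ (inr_mem_disjSum.2 hkt))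
      · refine Or.inl (g.supp_disj hZ (t' := range g.n \ t) sdiff_subset disjoint_sdiff _ ?_)
        exact inr_mem_disjSum.2 (mem_sdiff.2 ⟨mem_range.2 hk', hkt⟩)

end bounds

end GateLaw

end Vale.Agent.P148.R2.H172
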