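import Vale.Agent.P148.R2.H172.N3d
import Vale.Agent.P148.R2.H504.Gl
import Vale.Agent.P148.R2.H565.Loc12

/-!
# P148, the scene of the comb, part 1: the probability weights and the comb data

* `combOK_of_A0` : on the good event of `combLaw` the composite colouring satisfies `H565.CombOK`
* `pw g i` : the weight of the pair of colourings `i` as an extended real; `sum_pw`, `pw_ne`,
  `sum_pw_ofReal`, `pw_le`
-/

open Set Metric Relation Filter
open scoped Classical ENNReal

namespace Vale.Agent.P148.R2.H172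

open Vale.Agent.P148.R2.H953
open Vale.Agent.P148.R2.H592 (nbr)
open Vale.Agent.P148.R2.H678
open Vale.Agent.P148.R2.H938 (pc HBx CBx HubEv CorEv)
open Vale.Agent.P148.R2.N (ms nc gateC ms_pos)
open Vale.Agent.P148.R2.H504 (gw gw_nonneg sum_gw)

universe u v

section Comb

variable {V : Type v} [Fintype V] {e : V → ℂ} {M : ℕ}

/-- The composite colouring of the plane: `true` at the black sites. -/
noncomputable def cs (e : V → ℂ) (σ : V → Bool) (z : ℂ) : Bool := decide (z ∈ pc e true σ)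

omit [Fintype V] in
theorem cs_apply (he : Function.Injective e) (σ : V → Bool) (v : V) : cs e σ (e v) = σ v := by
  unfold cs
  by_cases h : σ v = true
  · rw [h, decide_eq_true_eq, mem_pc he]
    exact h
  · rw [Bool.not_eq_true] at h
    rw [h, decide_eq_false_iff_not, mem_pc he, h]
    exact Bool.false_ne_true

variable (hM : 0 < M) (Y : Set ℂ)

theorem w_mem (he : Function.Injective e) {c₁ c₂ : V → Bool} {v : V}
    (hE : e v ∈ Ex M Y (pc e true c₁) (pc e false c₁)) : (combLaw hM Y e).w c₁ c₂ v = c₁ v := by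
  have h := pc_w e hM Y he (c₁ v) c₁ c₂
  have h1 : e v ∈ pc e (c₁ v) ((combLaw hM Y e).w c₁ c₂) := by
    rw [h, mem_mix_of_mem hE, mem_pc he]
  exact (mem_pc he).1 h1

theorem w_not_mem (he : Function.Injective e) {c₁ c₂ : V → Bool} {v : V}
    (hE : e v ∉ Ex M Y (pc e true c₁) (pc e false c₁)) : (combLaw hM Y e).w c₁ c₂ v = c₂ v := by
  have h := pc_w e hM Y he (c₂ v) c₁ c₂
  have h1 : e v ∈ pc e (c₂ v) ((combLaw hM Y e).w c₁ c₂) := by
    rw [h, mem_mix_of_not_mem hE, mem_pc he]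
  exact (mem_pc he).1 h1

theorem Ex_of_in {Bl Wh : Set ℂ} {k : ℕ} {z : ℂ} (h : z ∈ inHub M Y Wh k) : z ∈ Ex M Y Bl Wh :=
  mem_iUnion.2 ⟨k, Or.inl h⟩

theorem Ex_of_out {Bl Wh : Set ℂ} {k : ℕ} {z : ℂ} (h : z ∈ outHub M Y Bl k) : z ∈ Ex M Y Bl Wh :=
  mem_iUnion.2 ⟨k, Or.inr h⟩

/-- **The good event gives the comb data.** The sites are points of `Y`, and contain those in the
disc of radius `6`. -/
theorem combOK_of_A0 (he : Function.Injective e) (hr : range e ⊆ Y) (hr' : Y ∩ ball 0 6 ⊆ range e)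
    {c₁ c₂ : V → Bool} (h : (combLaw hM Y e).A0 c₁ c₂) :
    H565.CombOK M Y (pc e true c₁) (pc e false c₁) (pc e true c₂) (pc e false c₂)
      (cs e ((combLaw hM Y e).w c₁ c₂)) where
  b2 := (H938.pc_subset _ _ _).trans hr
  w2 := (H938.pc_subset _ _ _).trans hr
  inG k hk := (h k hk).1.1
  outG k hk := (h k hk).1.2
  tooth k hk := (h k hk).2.1.1
  rails k hk := (h k hk).2.2
  hin k hk z hz hzw := by
    have hz1 : z ∈ Y := hub_sub_X hz
    have hz2 : z ∈ ball (0 : ℂ) 6 := hbx_sub_ball hM k (Or.inl ((h k hk).1.1 hz))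
    obtain ⟨v, rfl⟩ := hr' ⟨hz1, hz2⟩
    rw [cs_apply he, w_mem hM Y he (Ex_of_in Y hz)]
    rw [mem_pc he] at hzw
    exact Bool.not_eq_false _ ▸ hzw
  hout k hk z hz hzw := by
    have hz1 : z ∈ Y := hub_sub_X hz
    have hz2 : z ∈ ball (0 : ℂ) 6 := hbx_sub_ball hM k (Or.inr ((h k hk).1.2 hz))
    obtain ⟨v, rfl⟩ := hr' ⟨hz1, hz2⟩
    rw [cs_apply he, w_mem hM Y he (Ex_of_out Y hz)]
    rw [mem_pc he] at hzw
    exact Bool.not_eq_true _ ▸ hzw
  off2 z hz ho := by
    obtain ⟨v, hv, rfl⟩ := hz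
    have hE : e v ∉ Ex M Y (pc e true c₁) (pc e false c₁) := by
      rw [mem_Ex]
      rintro ⟨k, hk, h1 | h1⟩
      · exact (ho k hk).1 h1
      · exact (ho k hk).2 h1
    rw [cs_apply he, w_not_mem hM Y he hE]
    exact hv
  off2' z hz ho := by
    obtain ⟨v, hv, rfl⟩ := hz
    have hE : e v ∉ Ex M Y (pc e true c₁) (pc e false c₁) := by
      rw [mem_Ex]
      rintro ⟨k, hk, h1 | h1⟩
      · exact (ho k hk).1 h1
      · exact (ho k hk).2 h1
    rw [cs_apply he, w_not_mem hM Y he hE]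
    exact hv

/-- The radial corridors. -/
theorem rad_of_A0 {c₁ c₂ : V → Bool} (h : (combLaw hM Y e).A0 c₁ c₂) :
    ∀ k < nc M, Rad M Y (pc e false c₂) k := fun k hk => (h k hk).2.1.2

end Comb

/-! ### the weights -/

section Weights

variable {V : Type v} [Fintype V] (g : GateLaw V)

theorem wq_eq_gw (i : (V → Bool) × (V → Bool)) : g.wq i = gw g i := by
  unfold GateLaw.wq gw
  congr 1
  rw [← mul_pow]
  norm_num

/-- The weight of the pair of colourings `i`. -/
noncomputable def pw (i : (V → Bool) × (V → Bool)) : ℝ≥0∞ := ENNReal.ofReal (gw g i)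

theorem pw_ne {i : (V → Bool) × (V → Bool)} (h : pw g i ≠ 0) : g.A0 i.1 i.2 := by
  by_contra hcon
  apply h
  unfold pw gw GateLaw.L
  rw [if_neg hcon, zero_div, ENNReal.ofReal_zero]

/-- Means under the weights. -/
theorem sum_pw_ofReal {f : (V → Bool) → (V → Bool) → ℝ} (hf : ∀ a b, 0 ≤ f a b) :
    ∑ i, pw g i * ENNReal.ofReal (f i.1 i.2) = ENNReal.ofReal (g.qe f) := by
  rw [← sum_gw, ENNReal.ofReal_sum_of_nonneg fun i _ => mul_nonneg (gw_nonneg g i) (hf _ _)]
  refine Finset.sum_congr rfl fun i _ => ?_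
  rw [ENNReal.ofReal_mul (gw_nonneg g i)]
  rfl

variable {c : ℝ} (hc : 0 < c) (hH : ∀ k < g.n, c ≤ pr (g.He k)) (hC : ∀ k < g.n, c ≤ pr (g.Ce k))

include hc hH hC

theorem sum_pw : ∑ i, pw g i = 1 := by
  have h := sum_pw_ofReal g (f := fun _ _ => 1) fun _ _ => zero_le_one
  rw [g.qe_const hc hH hC 1, ENNReal.ofReal_one] at h
  simpa only [mul_one] using h

/-- The density of the weights is bounded. -/
theorem pw_le (i : (V → Bool) × (V → Bool)) :
    pw g i * 4 ^ Fintype.card V ≤ ENNReal.ofReal ((c ^ (2 * g.n))⁻¹) := by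
  have h4 : (4 : ℝ≥0∞) ^ Fintype.card V = ENNReal.ofReal (4 ^ Fintype.card V) := by
    rw [ENNReal.ofReal_pow (by norm_num)]
    norm_num
  rw [h4]
  unfold pw
  rw [← ENNReal.ofReal_mul (gw_nonneg g i)]
  apply ENNReal.ofReal_le_ofReal
  rw [← wq_eq_gw]
  unfold GateLaw.wq
  rw [div_mul_cancel₀ _ (by positivity)]
  exact g.L_le hc hH hC _ _

end Weights

end Vale.Agent.P148.R2.H172
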