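import Vale.Agent.P148.R2.H172.Sc5
import Vale.Agent.P148.R2.H678.Br2
import Vale.Agent.P148.R2.H112.Frame2
import Vale.Agent.P148.R2.H291.EvW

/-!
# P148, the scene of the comb, part 6: the worlds of positive weight, row tot

For `h : GoodT c M T` and a world `i` of positive weight of `fscOf hM h.site.hull` : the comb data
(`colD`), the facts of world 0 (`wdD`), a frame (`exists_fr`), the environment (`inEnv`), the facts
used by the rows.
-/

set_option linter.unusedSectionVars false

open Set Metric Relation Filter Function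
open scoped Classical ENNReal

namespace Vale.Agent.P148.R2.H172

open _root_.P148 _root_.P148.H729
open Vale.Agent.P148.R2.H592 (nbr HullTri idmap fib_id)
open Vale.Agent.P148.R2.H184 (Dt)
open Vale.Agent.P148.R2.N (ms nc gateC cellC csq ms_pos)
open Vale.Agent.P148.R2.H566 (W0 Scene AScene Ev Asq)
open Vale.Agent.P148.R2.H953 (Agree glue agree_glue pr)
open Vale.Agent.P148.R2.H938 (pc)
open Vale.Agent.P148.R2.H995 (nsup)
open Vale.Agent.P148.R2.H291 (SiteOK bR InEnv)
open Vale.Agent.P148.R2.H678 (WC WD fr E0X EJX wd)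

universe u

namespace GoodT

variable {c : ℝ} {M : ℕ} {T : Set Pt} (h : GoodT c M T) (hM : 0 < M)
  {i : (H291.site T 9 → Bool) × (H291.site T 9 → Bool)}
  (hi : (fscOf hM h.site.hull).p i ≠ 0)

include hi

theorem A0 [Fintype (H291.site T 9)] : (gX hM (H291.site T 9)).A0 i.1 i.2 :=
  fscOf_A0 hM h.site.hull hi

/-- The comb data. -/
theorem colD : H419.Col M (H291.site T 9) (bR 9) (pc Subtype.val true i.1)
    (pc Subtype.val false i.1) (pc Subtype.val true i.2) (pc Subtype.val false i.2)
    (cs Subtype.val (mc M (H291.site T 9) i)) := by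
  let := fX h.site.hull
  exact H678.col_site h.site (by norm_num) hM (h.A0 hM hi)

/-- The explored set is the one of helper419. -/
theorem E0X_eq : E0X M (H291.site T 9) (mc M (H291.site T 9) i) =
    H419.E0 M (H291.site T 9) (pc Subtype.val true i.1) (pc Subtype.val false i.1)
      (pc Subtype.val true i.2) (pc Subtype.val false i.2) := by
  let := fX h.site.hull
  exact H678.E0X_eq i.1 i.2

theorem EJX_eq (K : Set ℕ) (J : Set ℂ) : EJX M (H291.site T 9) K J (mc M (H291.site T 9) i) =
    H419.EK M (H291.site T 9) (pc Subtype.val true i.1) (pc Subtype.val false i.1)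
      (pc Subtype.val true i.2) (pc Subtype.val false i.2) K J := by
  let := fX h.site.hull
  exact H678.EJX_eq K J i.1 i.2

theorem wcD : WC (H291.site T 9) (E0X M (H291.site T 9) (mc M (H291.site T 9) i)) := by
  let := fX h.site.hull
  exact H678.wc_site h.site (by norm_num) hM (h.A0 hM hi)

/-- The facts of world 0. -/
theorem wdD : WD M (H291.site T 9) (bR 9) (cs Subtype.val (mc M (H291.site T 9) i))
    (E0X M (H291.site T 9) (mc M (H291.site T 9) i)) ((fscOf hM h.site.hull).w i).B := by
  let := fX h.site.hull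
  exact H678.wd_site h.site (by norm_num) hM (h.A0 hM hi)

/-- The facts of helper592. -/
theorem wfD (h2 : 2 ≤ M) : H592.WFacts (ms M) (H291.site T 9)
    (E0X M (H291.site T 9) (mc M (H291.site T 9) i))
    (fr (H291.site T 9) (E0X M (H291.site T 9) (mc M (H291.site T 9) i)))
    (H678.sgX (H291.site T 9) (mc M (H291.site T 9) i)) := by
  let := fX h.site.hull
  exact H678.wfacts_site h.site (by norm_num) hM h2 (h.A0 hM hi)

/-- The frozen set is the complement of the free region of helper419. -/
theorem B_eq : ((fscOf hM h.site.hull).w i).B = H291.site T 9 \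
    H419.I0 M (H291.site T 9) (pc Subtype.val true i.1) (pc Subtype.val false i.1)
      (pc Subtype.val true i.2) (pc Subtype.val false i.2) (H678.ctr (H291.site T 9)) := by
  have h1 := (h.wdD hM hi).B_eq
  rw [h.E0X_eq hM hi] at h1
  exact h1

/-- **There is a frame.** -/
theorem exists_fr (h8 : 8 ≤ M) : ∃ F, (fscOf hM h.site.hull).fr i = some F := by
  let := fX h.site.hull
  have hC := h.colD hM hi
  have hcs : (fun v : H291.site T 9 => cs Subtype.val (mc M (H291.site T 9) i) v.1) =
      mc M (H291.site T 9) i := funext fun v => H678.cs_val _ v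
  have hfoot : ∀ k, H419.Foot h.site.hull (xb h.site.hull) M (pc Subtype.val true i.1)
      (pc Subtype.val false i.1) (cs Subtype.val (mc M (H291.site T 9) i)) k
      (H126.rf h.site.hull (xb h.site.hull) M (mc M (H291.site T 9) i) k) := by
    intro k
    have h1 := H126.rf_foot hC (xb h.site.hull) k
    rw [hcs] at h1
    exact h1
  obtain ⟨F, -, hF⟩ := H112.frame_wd hM h.site.hull h8
    (fun j => by have := h.site.far j; linarith) (H678.center_site h.site) (h.A0 hM hi)
    (xb h.site.hull) (H126.rf_add h.site.hull (xb h.site.hull) M (mc M (H291.site T 9) i)) hfoot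
  exact exists_frm ⟨F, hF⟩

/-- The environment of the world. -/
theorem inEnv : InEnv ((fscOf hM h.site.hull).w i) (pts T) 3 (ms M / 1000) := by
  have hW := h.wdD hM hi
  refine h.site.inEnv rfl hW.hull (by norm_num) fun x hx => ?_
  have h1 := hW.free_nsup x hx.1 hx.2
  have h2 : ms M ≤ 1 := N.ms_le_one
  have h3 := H291.norm_le_nsup x
  rw [mem_closedBall_zero_iff]
  by_contra h4
  push Not at h4
  have h5 : 3 / 2 < nsup x := by linarith
  have h6 : nsup x < 1 + 5 / 8 := by linarith
  -- both coordinates are at most `13 / 8`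
  have h7 : |x.re| ≤ nsup x := le_max_left _ _
  have h8 : |x.im| ≤ nsup x := le_max_right _ _
  have h9 : ‖x‖ ^ 2 = x.re ^ 2 + x.im ^ 2 := by
    rw [← Complex.normSq_eq_norm_sq, Complex.normSq_apply]
    ring
  have h10 : x.re ^ 2 ≤ (13 / 8) ^ 2 := by
    rw [← sq_abs]
    exact pow_le_pow_left₀ (abs_nonneg _) (by linarith) 2
  have h11 : x.im ^ 2 ≤ (13 / 8) ^ 2 := by
    rw [← sq_abs]
    exact pow_le_pow_left₀ (abs_nonneg _) (by linarith) 2
  nlinarith

/-- Free sites are connected off the frozen set. -/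
theorem free_conn (x y : ℂ) (hx : ((fscOf hM h.site.hull).w i).Free x)
    (hy : ((fscOf hM h.site.hull).w i).Free y) :
    ReflTransGen (fun a b => nbr ((fscOf hM h.site.hull).w i).X a b ∧
      a ∉ ((fscOf hM h.site.hull).w i).B ∧ b ∉ ((fscOf hM h.site.hull).w i).B) x y :=
  (h.wdD hM hi).free_conn x hx.1 hx.2 y hy.1 hy.2

omit hi in
theorem agree4 : ((fscOf hM h.site.hull).w i).X ∩ ball 0 4 = pts T ∩ ball 0 4 :=
  h.site.agree (ball_subset_ball (by norm_num))

/-- There are frozen sites far away. -/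
theorem out : (((fscOf hM h.site.hull).w i).B \ ball 0 4).Nonempty :=
  ⟨bR 9 0, (h.wdD hM hi).hull 0, fun h1 => h.site.not_ball 0
    (ball_subset_ball (by norm_num) h1)⟩

end GoodT

/-- **Row (tot).** -/
theorem row_tot {τ : ℂ} {κ : ℝ} {Θ : Dt → ℂ} (hΘ : H184.Wt τ κ Θ) :
    ∃ C : ℝ, 0 ≤ C ∧ ∀ N, ∀ᶠ M in atTop, Ev.{u} fun T => (sc N M T).mq Θ ≤ ENNReal.ofReal C := by
  obtain ⟨c, hc, hg⟩ := exists_goodT.{u}
  refine ⟨max 0 (H291.CT κ (2 * 3)), le_max_left _ _, fun N => ?_⟩
  filter_upwards [eventually_gt_atTop 0] with M hM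
  have h0 := ms_pos hM
  have h1 : ms M ≤ 1 := Vale.Agent.P148.R2.N.ms_le_one
  refine ((hg M hM).and (H291.ev_gEnv.{u} hΘ (R := 3) (s := ms M / 1000) (by norm_num)
    (by linarith) ∅ (by simp))).mono ?_
  rintro T ⟨h2, h3⟩
  show (fsc M T).mq Θ ≤ _
  rw [fsc_eq hM h2.site]
  refine (H291.mq_le (h2.sum_p hc hM) h3 (by linarith) fun i hi => h2.inEnv hM hi).trans ?_
  exact ENNReal.ofReal_le_ofReal (le_max_right _ _)

end Vale.Agent.P148.R2.H172
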