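import Vale.Agent.P148.R2.H172.N3b
import Vale.Agent.P148.R2.H938.CombQ
import Vale.Agent.P148.R2.H678.Sep
import Vale.Agent.P148.R2.H504.Fin

/-!
# P148, row N3, part c: the law of the comb

`combLaw` : the gates of the comb (`H678`, `H938`) as a `GateLaw` for the colourings of a finite set
of sites `e : V → ℂ` (`true` is black); the composite colouring is `H678.mix (Ex ..) ..`
(`pc_w`); with high probability all events have probability at least `c` (`comb_law_whp`).
`wq` are the weights of the law on pairs of colourings, `ring_q` is the first level of the law of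
large numbers for functions of the composite colouring.
-/

open Set Metric Relation Filter
open scoped Classical

namespace Vale.Agent.P148.R2.H172

open Vale.Agent.P148.R2.H953
open Vale.Agent.P148.R2.F (whp)
open Vale.Agent.P148.R2.H592 (nbr)
open Vale.Agent.P148.R2.H678
open Vale.Agent.P148.R2.H938 (pc HBx CBx HubEv CorEv)
open Vale.Agent.P148.R2.N (ms nc gateC ms_pos)
open Vale.Agent.P148.R2.H504 (near fmean fdom err ring_fin)
open _root_.P148

universe u v

section Law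

variable {V : Type v} {e : V → ℂ} {M : ℕ}

theorem mem_pc (he : Function.Injective e) {c : Bool} {σ : V → Bool} {v : V} :
    e v ∈ pc e c σ ↔ σ v = c := by
  constructor
  · rintro ⟨w, hw, hwv⟩
    rw [← he hwv]
    exact hw
  · intro h
    exact ⟨v, h, rfl⟩

/-- Colourings which agree at the sites in `A`. -/
theorem pc_inter {c : Bool} {σ ρ : V → Bool} {A : Set ℂ} (h : Agree (e ⁻¹' A) σ ρ) :
    pc e c ρ ∩ A = pc e c σ ∩ A := by
  ext z
  constructor
  · rintro ⟨⟨v, hv, rfl⟩, hA⟩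
    refine ⟨⟨v, ?_, rfl⟩, hA⟩
    have h1 : ρ v = σ v := h v hA
    show σ v = c
    rw [← h1]
    exact hv
  · rintro ⟨⟨v, hv, rfl⟩, hA⟩
    refine ⟨⟨v, ?_, rfl⟩, hA⟩
    have h1 : ρ v = σ v := h v hA
    show ρ v = c
    rw [h1]
    exact hv

theorem pc_iff {c : Bool} {σ ρ : V → Bool} {A : Set ℂ} (h : Agree (e ⁻¹' A) σ ρ) {z : ℂ}
    (hz : z ∈ A) : z ∈ pc e c ρ ↔ z ∈ pc e c σ := by
  have h1 := pc_inter (c := c) h
  constructor
  · intro h2
    exact (h1 ▸ (⟨h2, hz⟩ : z ∈ pc e c ρ ∩ A) : z ∈ pc e c σ ∩ A).1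
  · intro h2
    exact (h1.symm ▸ (⟨h2, hz⟩ : z ∈ pc e c σ ∩ A) : z ∈ pc e c ρ ∩ A).1

variable [Fintype V]

/-- The inner and the outer hub of the gate `k`, as a set of sites. -/
def hubs (M : ℕ) (Y : Set ℂ) (e : V → ℂ) (k : ℕ) (σ : V → Bool) : Set V :=
  e ⁻¹' (inHub M Y (pc e false σ) k ∪ outHub M Y (pc e true σ) k)

omit [Fintype V] in
theorem stop_hubs (M : ℕ) (Y : Set ℂ) (e : V → ℂ) (k : ℕ) : IsStop (hubs M Y e k) := by
  intro σ ρ h
  unfold hubs at h ⊢
  have h1 : inHub M Y (pc e false ρ) k = inHub M Y (pc e false σ) k :=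
    hub_congr fun v hv => pc_iff h (Or.inl hv)
  have h2 : outHub M Y (pc e true ρ) k = outHub M Y (pc e true σ) k :=
    hub_congr fun v hv => pc_iff h (Or.inr hv)
  rw [h1, h2]

/-- **The law of the comb.** `e : V → ℂ` are the sites, `Y` is the set of all points (the relation
is `nbr Y`), `true` is black. -/
def combLaw (hM : 0 < M) (Y : Set ℂ) (e : V → ℂ) : GateLaw V where
  n := nc M
  Hub := hubs M Y e
  HB k := e ⁻¹' HBx M k
  CB k := e ⁻¹' CBx M k
  He k σ := HubEv M Y (pc e true σ) (pc e false σ) k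
  Ce k σ := CorEv M Y (pc e true σ) (pc e false σ) k
  stop k _ := stop_hubs M Y e k
  heOn k _ σ ρ h := propext (H938.hubEv_congr (pc_inter h) (pc_inter h)).symm
  ceOn k _ σ ρ h := propext (H938.corEv_congr (pc_inter h) (pc_inter h)).symm
  sub k _ σ h := by
    intro v hv
    rcases hv with hv | hv
    · exact Or.inl (h.1 hv)
    · exact Or.inr (h.2 hv)
  dH j hj k hk hjk := Disjoint.preimage e ((H938.lay hM).hubk j hj k hk hjk)
  dC j hj k hk hjk := Disjoint.preimage e ((H938.lay hM).cork j hj k hk hjk)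

theorem pc_glue (he : Function.Injective e) {A : Set V} {E : Set ℂ} (h : ∀ v, v ∈ A ↔ e v ∈ E)
    (c : Bool) (c₁ c₂ : V → Bool) :
    pc e c (glue A c₁ c₂) = mix E (pc e c c₁) (pc e c c₂) := by
  ext z
  constructor
  · rintro ⟨v, hv, rfl⟩
    have hv' : glue A c₁ c₂ v = c := hv
    by_cases hE : e v ∈ E
    · rw [mem_mix_of_mem hE, mem_pc he]
      rwa [glue_mem ((h v).2 hE)] at hv'
    · rw [mem_mix_of_not_mem hE, mem_pc he]
      rwa [glue_not_mem fun h' => hE ((h v).1 h')] at hv'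
  · intro hz
    have hr : z ∈ range e := by
      rcases hz with hz | hz
      · exact H938.pc_subset _ _ _ hz.1
      · exact H938.pc_subset _ _ _ hz.1
    obtain ⟨v, rfl⟩ := hr
    rw [mem_pc he]
    by_cases hE : e v ∈ E
    · rw [mem_mix_of_mem hE, mem_pc he] at hz
      rwa [glue_mem ((h v).2 hE)]
    · rw [mem_mix_of_not_mem hE, mem_pc he] at hz
      rwa [glue_not_mem fun h' => hE ((h v).1 h')]

variable (hM : 0 < M) (Y : Set ℂ) (e)

theorem comb_n : (combLaw hM Y e).n = nc M := rfl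

/-- The good event in the language of `H678`, `H938`. -/
theorem comb_A0 {c₁ c₂ : V → Bool} : (combLaw hM Y e).A0 c₁ c₂ ↔ ∀ k < nc M,
    HubEv M Y (pc e true c₁) (pc e false c₁) k ∧ CorEv M Y (pc e true c₂) (pc e false c₂) k :=
  Iff.rfl

theorem hubsGood_of_A0 {c₁ c₂ : V → Bool} (h : (combLaw hM Y e).A0 c₁ c₂) :
    HubsGood M Y (pc e true c₁) (pc e false c₁) := fun k hk => (h k hk).1

/-- The explored points of the gates in `t`. -/
def ExT (M : ℕ) (Y Bl Wh : Set ℂ) (t : Finset ℕ) : Set ℂ :=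
  ⋃ k ∈ t, inHub M Y Wh k ∪ outHub M Y Bl k

theorem ExT_range (M : ℕ) (Y Bl Wh : Set ℂ) : ExT M Y Bl Wh (Finset.range (nc M)) = Ex M Y Bl Wh := by
  ext v
  rw [mem_Ex]
  unfold ExT
  simp only [mem_iUnion, exists_prop, Finset.mem_range, mem_union]

/-- **The composite colouring** with the hubs of the gates in `t`. -/
theorem pc_W (he : Function.Injective e) (t : Finset ℕ) (c : Bool) (c₁ c₂ : V → Bool) :
    pc e c ((combLaw hM Y e).W t c₁ c₂) =
      mix (ExT M Y (pc e true c₁) (pc e false c₁) t) (pc e c c₁) (pc e c c₂) := by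
  refine pc_glue he (fun v => ?_) c c₁ c₂
  unfold ExT
  simp only [mem_iUnion, exists_prop]
  rfl

/-- **The composite colouring** is the mixed colouring of `H678`. -/
theorem pc_w (he : Function.Injective e) (c : Bool) (c₁ c₂ : V → Bool) :
    pc e c ((combLaw hM Y e).w c₁ c₂) =
      mix (Ex M Y (pc e true c₁) (pc e false c₁)) (pc e c c₁) (pc e c c₂) := by
  rw [← ExT_range]
  exact pc_W e hM Y he _ c c₁ c₂

/-- Touching gates, in the plane. -/
theorem touch_of {Z : Set ℂ} {t : Finset ℕ} (ht : t ⊆ Finset.range (nc M))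
    (h : ∀ k < nc M, k ∉ t → Disjoint (HBx M k) Z ∧ Disjoint (CBx M k) Z) :
    (combLaw hM Y e).Touch (e ⁻¹' Z) t :=
  ⟨ht, fun k hk hkt => ⟨Disjoint.preimage e (h k hk hkt).1, Disjoint.preimage e (h k hk hkt).2⟩⟩

end Law

/-! ### the weights on pairs of colourings -/

section Weights

variable {V : Type v} [Fintype V] (g : GateLaw V)

/-- The weights of the law `qe` on pairs of colourings. -/
noncomputable def GateLaw.wq (p : (V → Bool) × (V → Bool)) : ℝ :=
  g.L p.1 p.2 / 4 ^ Fintype.card V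

theorem GateLaw.wq_nonneg (p : (V → Bool) × (V → Bool)) : 0 ≤ g.wq p := by
  have := g.L_nonneg p.1 p.2
  unfold GateLaw.wq
  positivity

theorem GateLaw.sum_wq_mul (f : (V → Bool) → (V → Bool) → ℝ) :
    ∑ p : (V → Bool) × (V → Bool), g.wq p * f p.1 p.2 = g.qe f := by
  rw [g.qe_eq_L]
  unfold ex2 ex GateLaw.wq
  rw [Fintype.sum_prod_type]
  simp only [Finset.sum_div]
  refine Finset.sum_congr rfl fun c₁ _ => Finset.sum_congr rfl fun c₂ _ => ?_
  have h4 : (4 : ℝ) ^ Fintype.card V = 2 ^ Fintype.card V * 2 ^ Fintype.card V := by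
    rw [← mul_pow]; norm_num
  rw [h4]
  field_simp

variable {c : ℝ} (hc : 0 < c) (hH : ∀ k < g.n, c ≤ pr (g.He k)) (hC : ∀ k < g.n, c ≤ pr (g.Ce k))

include hc hH hC

theorem GateLaw.sum_wq : ∑ p : (V → Bool) × (V → Bool), g.wq p = 1 := by
  have h := g.sum_wq_mul fun _ _ => 1
  simp only [mul_one] at h
  rw [h]
  exact g.qe_const hc hH hC 1

/-- **First level of the law of large numbers**, abstract gates: `v k` is a function of the
composite colouring in `Z k`, and no gate touches both `Z i` and `Z j` when `i`, `j` are distant. -/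
theorem GateLaw.ring_q {M : ℕ} (hM : 0 < M) {v : ℕ → (V → Bool) → ℂ} {K : ℝ} (hK0 : 0 ≤ K)
    (r : ℕ) (hK : ∀ k < nc M, g.qe (fun c₁ c₂ => ‖v k (g.w c₁ c₂)‖ ^ 2) ≤ K * ms M ^ 2)
    (Z : ℕ → Set V) (t : ℕ → Finset ℕ) (hv : ∀ k < nc M, On (Z k) (v k))
    (hZ : ∀ k < nc M, g.Touch (Z k) (t k))
    (ht : ∀ i < nc M, ∀ j < nc M, j ∉ near (nc M) r i → Disjoint (t i) (t j))
    (hd : ∀ i < nc M, ∀ j < nc M, j ∉ near (nc M) r i → Disjoint (Z i) (Z j)) :
    g.qe (fun c₁ c₂ => fdom g.wq (nc M) (Nat.log 2 (12 * M) + 1)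
      (fun k p => v k (g.w p.1 p.2)) (c₁, c₂)) ≤ err (K * (216 * (r + 1))) M := by
  rw [← g.sum_wq_mul]
  refine ring_fin hM g.wq_nonneg (g.sum_wq hc hH hC) hK0 r (fun k hk => ?_)
    (fun i hi j hj hij φ ψ => ?_)
  · rw [g.sum_wq_mul fun c₁ c₂ => ‖v k (g.w c₁ c₂)‖ ^ 2]
    exact hK k hk
  · rw [g.sum_wq_mul fun c₁ c₂ => φ (v i (g.w c₁ c₂)) * ψ (v j (g.w c₁ c₂)),
      g.sum_wq_mul fun c₁ c₂ => φ (v i (g.w c₁ c₂)),
      g.sum_wq_mul fun c₁ c₂ => ψ (v j (g.w c₁ c₂))]
    exact g.qe_indep hc hH hC (hZ i hi) (hZ j hj) (ht i hi j hj hij) (hd i hi j hj hij)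
      (F := fun σ => φ (v i σ)) (G := fun σ => ψ (v j σ))
      (fun σ ρ h => congrArg φ (hv i hi σ ρ h)) fun σ ρ h => congrArg ψ (hv j hj σ ρ h)

end Weights

/-! ### with high probability -/

/-- **Lower bounds** for all the events of the comb. -/
theorem comb_law_whp : ∃ c > 0, ∀ (M : ℕ) (hM : 0 < M), ∀ᶠ m in whp.{u}, ∀ (V : Type v) [Fintype V]
    (e : V → ℂ), Function.Injective e → range e ⊆ pts m.2 → pts m.2 ∩ ball 0 6 ⊆ range e →
      (∀ k < (combLaw hM (pts m.2) e).n, c ≤ pr ((combLaw hM (pts m.2) e).He k)) ∧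
      (∀ k < (combLaw hM (pts m.2) e).n, c ≤ pr ((combLaw hM (pts m.2) e).Ce k)) := by
  obtain ⟨c, hc, h⟩ := H938.comb_pr_whp.{u, v}
  refine ⟨c, hc, fun M hM => ?_⟩
  filter_upwards [h M hM] with m hm V _ e he hr hbox
  obtain ⟨h1, h2, -, -⟩ := hm V e true he hr hbox
  exact ⟨fun k hk => h1 k hk, fun k hk => h2 k hk⟩

end Vale.Agent.P148.R2.H172
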