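import Vale.Agent.P148.R2.H172.Sc6

/-!
# P148, the scene of the comb: the rows in literal form

`meu_of_rows4` : the missing-energy bound from the rows (sf), (cnt), (pc), (door), (val), (lln),
(win) of the scene of the comb.
-/

open Set Metric Filter
open scoped ENNReal NNReal

namespace Vale.Agent.P148.R2.H172

open _root_.P148 _root_.P148.H729
open Vale.Agent.P148.R2.H184 (Dt Wt)
open Vale.Agent.P148.R2.H144 (MEU)
open Vale.Agent.P148.R2.H566 (x0 Ev EvZero EvMean)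

universe u

/-- The row (sf). -/
def RowSf (Θ : Dt → ℂ) : Prop := ∀ ε : ℝ, 0 < ε → ∃ N, ∀ᶠ M in atTop, Ev.{u} fun T =>
  (sc N M T).mnA (sc N M T).scl Θ ≤ ENNReal.ofReal ε

/-- The row (pc). -/
def RowPc (Θ : Dt → ℂ) : Prop := ∀ N, ∀ᶠ M in atTop, ∃ G : Set Pt → Prop, Ev.{u} G ∧
  EvZero.{u} fun T => ⨆ _ : G T, (sc N M T).mn (sc N M T).pcl Θ

/-- The row (cnt). -/
def RowCnt : Prop := ∀ N, ∃ C : ℝ≥0, ∀ᶠ M in atTop, Ev.{u} fun T => ∀ i, (sc N M T).p i ≠ 0 →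
  ∀ J, ((sc N M T).w i).msum ((sc N M T).Arc i J) (fun _ _ => 1) ≤ C

/-- The row (val). -/
def RowVal (Θ : Dt → ℂ) : Prop := ∀ N, ∀ᶠ M in atTop, Ev.{u} fun T => ∀ i, (sc N M T).p i ≠ 0 →
  ∀ J σ d, ((sc N M T).w i).cap ((sc N M T).Arc i J) σ d →
  ENNReal.ofReal (‖(fsc M T).hv N Θ i J σ d‖ ^ 2) ≤
    2 * (fsc M T).mx Θ i + 2 * (fsc M T).wn N Θ i J σ d

/-- The row (door). -/
def RowDoor (Θ : Dt → ℂ) : Prop := ∀ N, ∀ᶠ M in atTop, ∃ G : Set Pt → Prop, Ev.{u} G ∧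
  EvZero.{u} fun T => ⨆ _ : G T, (sc N M T).cm (fun i J σ d =>
    ENNReal.ofReal (‖((sc N M T).w i).T.cls σ d (((sc N M T).w i).th Θ) +
      (fsc M T).hv N Θ i J σ d‖ ^ 2))

/-- The row (lln). -/
def RowLln (Θ : Dt → ℂ) : Prop := ∀ N : ℕ, ∀ ε : ℝ, 0 < ε → ∀ᶠ M in atTop,
  ∃ G : Set Pt → Prop, Ev.{u} G ∧
  EvMean.{u} (fun T => ⨆ _ : G T, ∑ i, (sc N M T).p i * (fsc M T).mx Θ i) (ENNReal.ofReal ε)

/-- The row (win). -/
def RowWin (Θ : Dt → ℂ) : Prop := ∀ N, ∀ ε : ℝ, 0 < ε → ∀ᶠ M in atTop,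
  ∃ G : Set Pt → Prop, Ev.{u} G ∧
  EvMean.{u} (fun T => ⨆ _ : G T, (sc N M T).cm (fun i J => (fsc M T).wn N Θ i J))
    (ENNReal.ofReal ε)

/-- **The missing-energy bound from the open rows.** -/
theorem meu_of_rows4 {τ : ℂ} {κ₀ : ℝ} {Θ : Dt → ℂ} (hΘ : Wt τ κ₀ Θ) (sf : RowSf.{u} Θ)
    (pc : RowPc.{u} Θ) (cnt : RowCnt.{u}) (val : RowVal.{u} Θ) (door : RowDoor.{u} Θ)
    (lln : RowLln.{u} Θ) (win : RowWin.{u} Θ) : MEU.{u} x0 Θ := by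
  obtain ⟨C, hC, tot⟩ := row_tot.{u} hΘ
  exact H566.meu_of_rows3 hΘ (fun N => Fin (nA N)) sc row_ok hC tot sf pc
    (fun N M T i J => (fsc M T).hv N Θ i J) (fun _ M T i => (fsc M T).mx Θ i)
    (fun N M T i J => (fsc M T).wn N Θ i J) val cnt door lln win

end Vale.Agent.P148.R2.H172
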