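import Vale.Agent.P148.R2.H172.Sc1
import Vale.Agent.P148.R2.H609.SFA4
import Vale.Agent.P148.R2.H659.Close6
import Vale.Agent.P148.R2.H565.Vk
import Vale.Agent.P148.R2.H959.Reg

/-!
# P148, the scene of the comb, part 2: arcs and frames

* `nA N` arcs, the arc `j` goes from the gate `ga N M j` to the gate `ga N M (j + 1)`
* `Frame M w x₀ col` : the closed strand of the comb ring, with the times of the feet of the gates,
  and the main cycle (the boundary of the free region)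
* `Frame.ringOK` : the arcs of a frame are a ring of arcs (`H609.RingOK`)
-/

open Set Metric Relation Filter Function
open scoped Classical ENNReal

namespace Vale.Agent.P148.R2.H172

open Vale.Agent.P148.R2.H592 (nbr)
open Vale.Agent.P148.R2.N (ms nc gateC cellC csq ms_pos)
open Vale.Agent.P148.R2.H959 (reg)
open Vale.Agent.P148.R2.H995 (nsup)
open Vale.Agent.P148.R2.H566 (W0)
open Vale.Agent.P148.R2.H609 (TP piX cyP Bq RingOK)
open Vale.Agent.P148.R2.H871 (per src0)

/-! ### the arcs -/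

/-- The number of arcs. -/
def nA (N : ℕ) : ℕ := 4 * (N + 1)

/-- The first gate of the arc `j`. -/
def ga (N M j : ℕ) : ℕ := j * (2 * M + 1) / (N + 1)

instance (N : ℕ) : NeZero (nA N) := ⟨by unfold nA; omega⟩

variable {N M : ℕ}

theorem ga_zero : ga N M 0 = 0 := by simp [ga]

theorem ga_add (j : ℕ) : ga N M (j + nA N) = ga N M j + nc M := by
  unfold ga nA nc
  rw [show (j + 4 * (N + 1)) * (2 * M + 1) = j * (2 * M + 1) + (4 * (2 * M + 1)) * (N + 1) by ring,
    Nat.add_mul_div_right _ _ (Nat.succ_pos N)]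

theorem ga_last : ga N M (nA N) = nc M := by
  have := ga_add (N := N) (M := M) 0
  rwa [zero_add, ga_zero, zero_add] at this

theorem ga_mono {i j : ℕ} (h : i ≤ j) : ga N M i ≤ ga N M j :=
  Nat.div_le_div_right (Nat.mul_le_mul_right _ h)

theorem ga_succ_le (j : ℕ) : ga N M (j + 1) ≤ ga N M j + ((2 * M + 1) / (N + 1) + 1) := by
  unfold ga
  have h := Nat.add_div (a := j * (2 * M + 1)) (b := 2 * M + 1) (Nat.succ_pos N)
  rw [Nat.succ_eq_add_one] at h
  rw [add_mul, one_mul, h]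
  split_ifs <;> omega

theorem le_ga_succ (j : ℕ) : ga N M j + (2 * M + 1) / (N + 1) ≤ ga N M (j + 1) := by
  unfold ga
  rw [add_mul, one_mul]
  exact Nat.div_add_div_le_add_div

theorem ga_four (h : 4 * (N + 1) ≤ 2 * M + 1) (j : ℕ) : ga N M j + 4 ≤ ga N M (j + 1) := by
  have h1 := le_ga_succ (N := N) (M := M) j
  have h2 : 4 ≤ (2 * M + 1) / (N + 1) := (Nat.le_div_iff_mul_le (Nat.succ_pos N)).2 h
  omega

theorem ga_lt_nc {j : ℕ} (h : 4 * (N + 1) ≤ 2 * M + 1) (hj : j < nA N) : ga N M j < nc M := by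
  have h1 := ga_four h j
  have h2 : ga N M (j + 1) ≤ ga N M (nA N) := ga_mono hj
  rw [ga_last] at h2
  omega

/-- The arcs start away from the ends of the sides. -/
theorem ga_mod (j : ℕ) : ga N M j % (2 * M + 1) + (2 * M + 1) / (N + 1) ≤ 2 * M + 1 := by
  have h1 := Nat.div_add_mod j (N + 1)
  set q := j / (N + 1)
  set r := j % (N + 1) with hr
  have hr' : r ≤ N := by
    have : j % (N + 1) < N + 1 := Nat.mod_lt j (Nat.succ_pos N)
    omega
  have h2 : ga N M j = q * (2 * M + 1) + r * (2 * M + 1) / (N + 1) := by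
    unfold ga
    rw [← h1, show ((N + 1) * q + r) * (2 * M + 1) =
      r * (2 * M + 1) + (q * (2 * M + 1)) * (N + 1) by ring,
      Nat.add_mul_div_right _ _ (Nat.succ_pos N), add_comm]
  have h3 : r * (2 * M + 1) / (N + 1) + (2 * M + 1) / (N + 1) ≤ 2 * M + 1 := by
    refine Nat.div_add_div_le_add_div.trans ?_
    have h4 : r * (2 * M + 1) + (2 * M + 1) ≤ (2 * M + 1) * (N + 1) := by
      have := Nat.mul_le_mul_right (2 * M + 1) (show r + 1 ≤ N + 1 by omega)
      linarith [this, add_one_mul r (2 * M + 1), mul_comm (2 * M + 1) (N + 1)]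
    calc (r * (2 * M + 1) + (2 * M + 1)) / (N + 1) ≤ (2 * M + 1) * (N + 1) / (N + 1) :=
          Nat.div_le_div_right h4
      _ = 2 * M + 1 := Nat.mul_div_cancel _ (Nat.succ_pos N)
  rcases Nat.lt_or_ge (r * (2 * M + 1) / (N + 1)) (2 * M + 1) with h5 | h5
  · rw [h2, add_comm (q * (2 * M + 1)), Nat.add_mul_mod_self_right, Nat.mod_eq_of_lt h5]
    exact h3
  · obtain ⟨D, hD⟩ : ∃ D, D = (2 * M + 1) / (N + 1) := ⟨_, rfl⟩
    obtain ⟨E, hE⟩ : ∃ E, E = r * (2 * M + 1) / (N + 1) := ⟨_, rfl⟩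
    rw [← hD, ← hE] at h3
    rw [← hE] at h5 h2
    have h6 : E = 2 * M + 1 := by omega
    rw [h2, h6, ← add_one_mul, Nat.mul_mod_left, ← hD]
    omega

/-- The first cells of an arc are straight. -/
theorem ga_straight (j : ℕ) {i : ℕ} (hi : i + 2 ≤ (2 * M + 1) / (N + 1)) :
    (ga N M j + i) % (2 * M + 1) < 2 * M := by
  have h1 := ga_mod (N := N) (M := M) j
  rw [Nat.add_mod, Nat.mod_eq_of_lt (show i < 2 * M + 1 by omega), Nat.mod_eq_of_lt (by omega)]
  omega

/-- Lower bound for the number of gates of an arc. -/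
theorem ga_add_le {m : ℕ} (h : m * (N + 1) ≤ 2 * M + 1) (j : ℕ) :
    ga N M j + m ≤ ga N M (j + 1) := by
  have h1 := le_ga_succ (N := N) (M := M) j
  have h2 : m ≤ (2 * M + 1) / (N + 1) := (Nat.le_div_iff_mul_le (Nat.succ_pos N)).2 h
  omega

/-- **The door cell of the arc `j`.** -/
def dcl (N M j : ℕ) : ℕ := ga N M j + 4

theorem dcl_straight (h : 10 * (N + 1) ≤ 2 * M + 1) (j : ℕ) : dcl N M j % (2 * M + 1) < 2 * M :=
  ga_straight j (by
    have : 10 ≤ (2 * M + 1) / (N + 1) := (Nat.le_div_iff_mul_le (Nat.succ_pos N)).2 h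
    omega)

/-- The door cell is strictly inside the arc. -/
theorem dcl_inside (h : 10 * (N + 1) ≤ 2 * M + 1) (j : ℕ) :
    ga N M j + 4 = dcl N M j ∧ dcl N M j + 6 ≤ ga N M (j + 1) := ⟨rfl, by
  have := ga_add_le h j
  unfold dcl
  omega⟩

/-! ### frames -/

/-- The black sites. -/
def blk {w : W0} (col : w.X → Bool) : Set ℂ := {z | ∃ h : z ∈ w.X, col ⟨z, h⟩ = true}

/-- **The frame of a world**: the closed strand of `o` for the colouring `col` goes round the ring,
`t k` is the time of a foot of the gate `k`, it sees the region `k` between the times `t k` and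
`t (k + 1)`; `c 0, …, c (n - 1)` are the members of its main cycle, at the times `tm i`. -/
structure Frame (M : ℕ) (w : W0) (x₀ : w.X) (col : w.X → Bool) where
  o : w.D
  t : ℕ → ℕ
  n : ℕ
  c : ℕ → w.D
  tm : ℕ → ℕ
  lt : H565.LoopT (TP w x₀) col (nc M) o t
  seen : ∀ k i, t k ≤ i → i < t (k + 1) →
    ((TP w x₀).src (((TP w x₀).st col)^[i] o)).1 ∈ reg M k ∧
    ((TP w x₀).tgt (((TP w x₀).st col)^[i] o)).1 ∈ reg M k ∧
    ((TP w x₀).apex (((TP w x₀).st col)^[i] o)).1 ∈ reg M k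
  foot : ∀ k, H565.Foot M w.X (blk col) k
    (((TP w x₀).src (((TP w x₀).st col)^[t k] o)).1, ((TP w x₀).tgt (((TP w x₀).st col)^[t k] o)).1)
  loop : H659.Loop (TP w x₀) (piX w) w.O col o n c tm
  main : H659.Main (TP w x₀) col o t (c 0)

namespace Frame

variable {w : W0} {x₀ : w.X} {col : w.X → Bool} (F : Frame M w x₀ col)

/-- The vertices of the main cycle seen between the gates `a` and `b`. -/
def P (a b : ℕ) : Set ℂ := cyP F.c F.tm F.n (F.t a) (F.t b)

theorem per_eq : F.t (nc M) = per (TP w x₀) col F.o := by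
  have := F.lt.per 0
  rwa [zero_add, F.lt.zero, zero_add] at this

theorem mem_reg {a b : ℕ} {x : ℂ} (hx : x ∈ F.P a b) : ∃ k, a ≤ k ∧ k < b ∧ x ∈ reg M k := by
  obtain ⟨i, hi, h1, h2, rfl⟩ := hx
  obtain ⟨k, h3, h4⟩ := F.lt.loc (F.tm i)
  have h5 := F.lt.lt_iff.1 (h1.trans_lt h4)
  have h6 := F.lt.lt_iff.1 (h3.trans_lt h2)
  refine ⟨k, by omega, h6, ?_⟩
  have h7 := (F.seen k _ h3 h4).1
  rwa [F.loop.hit i hi, src0] at h7

theorem feet : H659.Feet (TP w x₀) col F.o (nc M) F.t :=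
  H659.feet_of_loopT' F.lt (by unfold nc; omega)

/-- There are members between distant gates. -/
theorem ne {a b : ℕ} (hab : a + 3 ≤ b) (hb : b ≤ nc M) : (F.P a b).Nonempty := by
  obtain ⟨m, h1⟩ := F.feet.exists_lm (H592.HullTri.planar258 _ _ _) (k := a + 1) (by omega)
  obtain ⟨k0, m0, h2, h3⟩ := F.main
  have h4 := (TP w x₀).rel_trans ((TP w x₀).rel_symm h3) (F.feet.rel_lm h2 h1)
  obtain ⟨-, h5, h6, -, -⟩ := h1
  have h7 : F.t (a + 1 + 1) ≤ F.t b := F.lt.mono (by omega)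
  have h8 : F.t b ≤ per (TP w x₀) col F.o := by rw [← F.per_eq]; exact F.lt.mono hb
  obtain ⟨i, hi, hie⟩ := F.loop.all m (by omega) h4
  refine ⟨H592.tail (F.c i), i, hi, ?_, ?_, rfl⟩
  · rw [hie]; exact (F.lt.mono (show a ≤ a + 1 by omega)).trans h5
  · rw [hie]; omega

theorem noloop (w : W0) (x₀ : w.X) (f : w.D) : (TP w x₀).src f ≠ (TP w x₀).tgt f := by
  intro h
  have h1 := congrArg Subtype.val h
  rw [src0, H609.tgt_TP] at h1
  exact (w.hull.nbr_th f).2.2.1 h1

/-- **The loop based at the foot of the gate `j`.** -/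
theorem exists_base (j : ℕ) : ∃ (n : ℕ) (c : ℕ → w.D) (τ : ℕ → ℕ),
    H659.Loop (TP w x₀) (piX w) w.O col (((TP w x₀).st col)^[F.t j] F.o) n c τ ∧
    H659.Feet (TP w x₀) col (((TP w x₀).st col)^[F.t j] F.o) (nc M)
      (fun k => F.t (j + k) - F.t j) ∧
    H659.Main (TP w x₀) col (((TP w x₀).st col)^[F.t j] F.o) (fun k => F.t (j + k) - F.t j)
      (c 0) ∧
    ∀ g, (TP w x₀).Rel col (F.c 0) g ↔ ∃ i < n, g = c i := by
  have hP : (TP w x₀).Planar := H592.HullTri.planar258 _ _ _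
  have hpos := F.loop.ring.pos
  have h0 : ((TP w x₀).st col)^[F.tm 0] F.o = F.c 0 := F.loop.hit 0 hpos
  have hseen : ∀ k, piX w ((TP w x₀).src (((TP w x₀).st col)^[k] F.o)) = w.O ∧
      piX w ((TP w x₀).tgt (((TP w x₀).st col)^[k] F.o)) = w.O := by
    intro k
    obtain ⟨m, hm⟩ := H659.iter_back (T := TP w x₀) (σ := col) (o := F.o) (F.tm 0) k
    rw [h0] at hm
    rw [← hm]
    exact F.loop.ring.seen m
  refine H659.exists_loop_foot hP (noloop w x₀) F.feet (F.loop.ring.mi 0 hpos)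
    ⟨F.tm 0, h0⟩ hseen (fun f h1 h2 => ?_) F.main j
  obtain ⟨i, hi, h3⟩ := F.loop.ring.ring f h1 h2
  exact ⟨F.c i, F.loop.mem i hi, h3⟩

end Frame

theorem dist_reg (hM : 0 < M) {k l n : ℕ} (h1 : k ≤ l + n) (h2 : l ≤ k + n) {x y : ℂ}
    (hx : x ∈ reg M k) (hy : y ∈ reg M l) : dist x y ≤ 2 * ((5 / 4 + n) * ms M) := by
  have h3 := H959.reg_subset_csq hM k hx
  have h4 := H959.reg_subset_window hM h1 h2 hy
  obtain ⟨a1, a2⟩ := N.mem_csq.1 h3
  obtain ⟨b1, b2⟩ := N.mem_csq.1 h4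
  rw [Complex.dist_eq]
  refine (Complex.norm_le_abs_re_add_abs_im _).trans ?_
  have e1 : |(x - y).re| ≤ (5 / 4 + n) * ms M := by
    have := abs_sub_le x.re (cellC M k).re y.re
    rw [abs_sub_comm (cellC M k).re y.re] at this
    rw [Complex.sub_re]
    linarith
  have e2 : |(x - y).im| ≤ (5 / 4 + n) * ms M := by
    have := abs_sub_le x.im (cellC M k).im y.im
    rw [abs_sub_comm (cellC M k).im y.im] at this
    rw [Complex.sub_im]
    linarith
  linarith

theorem div_mul_ms_le (hM : 0 < M) (N : ℕ) :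
    (((2 * M + 1) / (N + 1) : ℕ) : ℝ) * ms M ≤ 3 / (N + 1) := by
  have h1 : (((2 * M + 1) / (N + 1) : ℕ) : ℝ) ≤ ((2 * M + 1 : ℕ) : ℝ) / ((N + 1 : ℕ) : ℝ) :=
    Nat.cast_div_le
  have h0 := ms_pos hM
  have h2 : (M : ℝ) * ms M = 1 := Vale.Agent.P148.R2.N.M_mul_ms hM
  have h3 : ms M ≤ 1 := Vale.Agent.P148.R2.N.ms_le_one
  push_cast at h1
  calc (((2 * M + 1) / (N + 1) : ℕ) : ℝ) * ms M ≤ ((2 * M + 1) / (N + 1) : ℝ) * ms M :=
        mul_le_mul_of_nonneg_right h1 h0.le
    _ = (2 * (M * ms M) + ms M) / (N + 1) := by ring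
    _ ≤ 3 / (N + 1) := by
        rw [h2]
        gcongr
        linarith

/-- **The arcs of a frame are a ring of arcs.** -/
theorem Frame.ringOK {w : W0} {x₀ : w.X} {col : w.X → Bool} (F : Frame M w x₀ col) (hM : 0 < M)
    (hN : 4 * (N + 1) ≤ 2 * M + 1)
    (hfree : ∀ x y, w.Free x → w.Free y →
      Relation.ReflTransGen (fun a b => nbr w.X a b ∧ a ∉ w.B ∧ b ∉ w.B) x y) {η : ℝ}
    (hη : 12 / (N + 1) + 13 / 2 * ms M ≤ η) :
    RingOK w (fun i : ZMod (nA N) => F.P (ga N M i.val) (ga N M (i.val + 1))) η := by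
  refine H609.ringOK_of_loop F.loop (s := fun j => F.t (ga N M j)) (by
    show F.t (ga N M 0) = 0
    rw [ga_zero, F.lt.zero]) (by
    show F.t (ga N M (nA N)) = _
    rw [ga_last, F.per_eq]) (fun i _ => F.lt.mono (ga_mono (Nat.le_succ i))) hfree
    (fun i => ?_) (fun i x hx y hy => ?_)
  · have h1 := ga_four hN i.val
    refine F.ne (by omega) ?_
    rw [← ga_last (N := N)]
    exact ga_mono (ZMod.val_lt i)
  · set j := i.val with hj
    have hjn : j < nA N := ZMod.val_lt i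
    obtain ⟨k, hk1, hk2, hk⟩ := F.mem_reg hx
    have key : ∃ l, ga N M j ≤ l ∧ l < ga N M (j + 2) ∧ y ∈ reg M l := by
      rcases hy with hy | hy
      · obtain ⟨l, hl1, hl2, hl⟩ := F.mem_reg hy
        exact ⟨l, hl1, hl2.trans_le (ga_mono (by omega)), hl⟩
      · obtain ⟨l, hl1, hl2, hl⟩ := F.mem_reg hy
        by_cases hjl : j + 1 < nA N
        · have hv : (i + 1).val = j + 1 := by
            have e1 : i + 1 = ((j + 1 : ℕ) : ZMod (nA N)) := by
              rw [hj, Nat.cast_add, ZMod.natCast_zmod_val, Nat.cast_one]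
            rw [e1, ZMod.val_cast_of_lt hjl]
          rw [hv] at hl1 hl2
          exact ⟨l, (ga_mono (by omega)).trans hl1, hl2, hl⟩
        · have hjl' : j + 1 = nA N := by omega
          have hv : (i + 1).val = 0 := by
            have e1 : i + 1 = ((j + 1 : ℕ) : ZMod (nA N)) := by
              rw [hj, Nat.cast_add, ZMod.natCast_zmod_val, Nat.cast_one]
            rw [e1, hjl', ZMod.natCast_self, ZMod.val_zero]
          rw [hv] at hl1 hl2
          refine ⟨l + nc M, ?_, ?_, ?_⟩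
          · have h1 := ga_lt_nc (M := M) hN hjn
            omega
          · rw [show j + 2 = 1 + nA N by omega, ga_add]
            rw [zero_add] at hl2
            omega
          · rw [H959.reg_add_nc]
            exact hl
    obtain ⟨l, hl1, hl2, hl⟩ := key
    have g1 := ga_succ_le (N := N) (M := M) j
    have g2 : ga N M (j + 2) ≤ ga N M (j + 1) + ((2 * M + 1) / (N + 1) + 1) :=
      ga_succ_le (N := N) (M := M) (j + 1)
    have h0 := ms_pos hM
    have h3 := div_mul_ms_le hM N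
    set D := (2 * M + 1) / (N + 1) with hD
    refine (dist_reg hM (n := 2 * (D + 1)) (by omega) (by omega) hk hl).trans (le_trans ?_ hη)
    push_cast
    have e1 : 2 * ((5 / 4 + 2 * ((D : ℝ) + 1)) * ms M) = 4 * ((D : ℝ) * ms M) + 13 / 2 * ms M := by
      ring
    rw [e1]
    have e2 : 4 * (3 / ((N : ℝ) + 1)) = 12 / (N + 1) := by ring
    linarith

theorem Frame.nsup_P {w : W0} {x₀ : w.X} {col : w.X → Bool} (F : Frame M w x₀ col) (hM : 0 < M)
    {a b : ℕ} {x : ℂ} (hx : x ∈ F.P a b) :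
    1 - ms M / 8 < nsup x ∧ nsup x < 1 + 5 * ms M / 8 := by
  obtain ⟨k, -, -, hk⟩ := F.mem_reg hx
  exact H959.reg_nsup hM hk

end Vale.Agent.P148.R2.H172
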