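import Vale.Agent.P148.R2.H172.Sc2

/-!
# P148, the scene of the comb, part 3: based frames

* `Frame.bn j`, `bc j`, `bt j` : the loop of a frame, based at the foot of the gate `j`
* `Frame.Q a b` : the vertices of the members of the main class seen between the feet of the
  gates `a` and `b` (all `a ≤ b`); `P_eq_Q`, `base_Q`
* `Frame.arc_eq` : the arc of a frame as an arc of helper659
-/

open Set Metric Relation Filter Function
open scoped Classical ENNReal

namespace Vale.Agent.P148.R2.H172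

open Vale.Agent.P148.R2.H592 (nbr)
open Vale.Agent.P148.R2.N (ms nc gateC cellC csq ms_pos)
open Vale.Agent.P148.R2.H566 (W0)
open Vale.Agent.P148.R2.H609 (TP piX cyP Bq)
open Vale.Agent.P148.R2.H871 (per)

/-! ### based frames -/

namespace Frame

variable {M : ℕ} {w : W0} {x₀ : w.X} {col : w.X → Bool} (F : Frame M w x₀ col)

/-- The foot of the gate `j`. -/
noncomputable def ob (j : ℕ) : w.D := ((TP w x₀).st col)^[F.t j] F.o

/-- The times of the feet, counted from the foot of the gate `j`. -/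
def tb (j k : ℕ) : ℕ := F.t (j + k) - F.t j

/-- The number of members of the main class. -/
noncomputable def bn (j : ℕ) : ℕ := (F.exists_base j).choose

/-- The members of the main class, from the foot of the gate `j` on. -/
noncomputable def bc (j : ℕ) : ℕ → w.D := (F.exists_base j).choose_spec.choose

/-- Their times, counted from the foot of the gate `j`. -/
noncomputable def bt (j : ℕ) : ℕ → ℕ := (F.exists_base j).choose_spec.choose_spec.choose

theorem base_loop (j : ℕ) :
    H659.Loop (TP w x₀) (piX w) w.O col (F.ob j) (F.bn j) (F.bc j) (F.bt j) :=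
  (F.exists_base j).choose_spec.choose_spec.choose_spec.1

theorem base_feet (j : ℕ) : H659.Feet (TP w x₀) col (F.ob j) (nc M) (F.tb j) :=
  (F.exists_base j).choose_spec.choose_spec.choose_spec.2.1

theorem base_main (j : ℕ) : H659.Main (TP w x₀) col (F.ob j) (F.tb j) (F.bc j 0) :=
  (F.exists_base j).choose_spec.choose_spec.choose_spec.2.2.1

theorem base_rel (j : ℕ) (g : w.D) :
    (TP w x₀).Rel col (F.c 0) g ↔ ∃ i < F.bn j, g = F.bc j i :=
  (F.exists_base j).choose_spec.choose_spec.choose_spec.2.2.2 g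

theorem base_rel0 (j : ℕ) : (TP w x₀).Rel col (F.c 0) (F.bc j 0) :=
  (F.base_rel j _).2 ⟨0, (F.base_loop j).ring.pos, rfl⟩

theorem tb_zero (j : ℕ) : F.tb j 0 = 0 := by
  unfold tb; rw [add_zero, Nat.sub_self]

theorem t_add_nc (j : ℕ) : F.t (j + nc M) = F.t j + F.t (nc M) := by
  rw [F.lt.per j, F.per_eq]

theorem tb_nc (j : ℕ) : F.tb j (nc M) = F.t (nc M) := by
  unfold tb; rw [F.t_add_nc]; omega

/-- The period does not depend on the base. -/
theorem per_ob (j : ℕ) : per (TP w x₀) col (F.ob j) = F.t (nc M) := by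
  have := (F.base_feet j).add 0
  rw [zero_add, F.tb_zero, zero_add, F.tb_nc] at this
  exact this.symm

/-- The vertices of the members of the main class seen between the feet of the gates `a`, `b`. -/
def Q (a b : ℕ) : Set ℂ :=
  {x | ∃ m, F.t a ≤ m ∧ m < F.t b ∧ (TP w x₀).Rel col (F.c 0) (((TP w x₀).st col)^[m] F.o) ∧
    H592.tail (((TP w x₀).st col)^[m] F.o) = x}

theorem Q_add_nc (a b : ℕ) : F.Q (a + nc M) (b + nc M) = F.Q a b := by
  have key : ∀ m, ((TP w x₀).st col)^[m + F.t (nc M)] F.o = ((TP w x₀).st col)^[m] F.o := by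
    intro m
    have := H659.st_addn (T := TP w x₀) (σ := col) (o := F.o) m 1
    rwa [one_mul, ← F.per_eq] at this
  ext x
  constructor
  · rintro ⟨m, h1, h2, h3, h4⟩
    rw [F.t_add_nc] at h1 h2
    obtain ⟨l, rfl⟩ : ∃ l, m = l + F.t (nc M) := ⟨m - F.t (nc M), by omega⟩
    rw [key] at h3 h4
    exact ⟨l, by omega, by omega, h3, h4⟩
  · rintro ⟨m, h1, h2, h3, h4⟩
    refine ⟨m + F.t (nc M), by rw [F.t_add_nc]; omega, by rw [F.t_add_nc]; omega, ?_, ?_⟩
    · rw [key]; exact h3
    · rw [key]; exact h4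

theorem Q_mono {a b a' b' : ℕ} (h1 : a' ≤ a) (h2 : b ≤ b') : F.Q a b ⊆ F.Q a' b' := by
  rintro x ⟨m, h3, h4, h5, h6⟩
  exact ⟨m, (F.lt.mono h1).trans h3, h4.trans_le (F.lt.mono h2), h5, h6⟩

/-- The loop of any base, in terms of `Q`. -/
theorem base_Q {j k l : ℕ} (hl : l ≤ nc M) :
    cyP (F.bc j) (F.bt j) (F.bn j) (F.tb j k) (F.tb j l) = F.Q (j + k) (j + l) := by
  have hL := F.base_loop j
  have hit : ∀ m, ((TP w x₀).st col)^[m] (F.ob j) = ((TP w x₀).st col)^[m + F.t j] F.o := by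
    intro m
    rw [Function.iterate_add_apply]
    rfl
  have h0 := F.base_rel0 j
  ext x
  constructor
  · rintro ⟨i, hi, h1, h2, rfl⟩
    have h3 := hL.hit i hi
    rw [hit] at h3
    have hjk : F.t j ≤ F.t (j + k) := F.lt.mono (Nat.le_add_right j k)
    have hjl : F.t j ≤ F.t (j + l) := F.lt.mono (Nat.le_add_right j l)
    unfold tb at h1 h2
    refine ⟨F.bt j i + F.t j, by omega, by omega, ?_, ?_⟩
    · rw [h3]
      exact (TP w x₀).rel_trans h0 (hL.mem i hi)
    · rw [h3]
  · rintro ⟨m, h1, h2, h3, h4⟩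
    have hjk : F.t j ≤ F.t (j + k) := F.lt.mono (Nat.le_add_right j k)
    have hjl : F.t (j + l) ≤ F.t (j + nc M) := F.lt.mono (by omega)
    rw [F.t_add_nc] at hjl
    have h5 : ((TP w x₀).st col)^[m - F.t j] (F.ob j) = ((TP w x₀).st col)^[m] F.o := by
      rw [hit, show m - F.t j + F.t j = m by omega]
    obtain ⟨i, hi, hie⟩ := hL.all (m - F.t j) (by rw [F.per_ob]; omega) (by
      rw [h5]
      exact (TP w x₀).rel_trans ((TP w x₀).rel_symm h0) h3)
    refine ⟨i, hi, ?_, ?_, ?_⟩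
    · rw [hie]; unfold tb; omega
    · rw [hie]; unfold tb; omega
    · rw [← hL.hit i hi, hie, h5]
      exact h4

/-- The arcs `P` in terms of `Q`. -/
theorem P_eq_Q {a b : ℕ} (hb : b ≤ nc M) : F.P a b = F.Q a b := by
  have hL := F.loop
  ext x
  constructor
  · rintro ⟨i, hi, h1, h2, rfl⟩
    refine ⟨F.tm i, h1, h2, ?_, ?_⟩
    · rw [hL.hit i hi]
      exact hL.mem i hi
    · rw [hL.hit i hi]
  · rintro ⟨m, h1, h2, h3, h4⟩
    have h5 : F.t b ≤ per (TP w x₀) col F.o := by rw [← F.per_eq]; exact F.lt.mono hb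
    obtain ⟨i, hi, hie⟩ := hL.all m (by omega) h3
    refine ⟨i, hi, ?_, ?_, ?_⟩
    · rw [hie]; exact h1
    · rw [hie]; exact h2
    · rw [← hL.hit i hi, hie]
      exact h4

theorem mem_reg_Q {a b : ℕ} {x : ℂ} (hx : x ∈ F.Q a b) :
    ∃ k, a ≤ k ∧ k < b ∧ x ∈ H959.reg M k := by
  obtain ⟨i, h1, h2, -, rfl⟩ := hx
  obtain ⟨k, h3, h4⟩ := F.lt.loc i
  have h5 := F.lt.lt_iff.1 (h1.trans_lt h4)
  have h6 := F.lt.lt_iff.1 (h3.trans_lt h2)
  refine ⟨k, by omega, h6, ?_⟩
  have h7 := (F.seen k _ h3 h4).1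
  rwa [H871.src0] at h7

/-- **The arc of a frame as an arc of its loop based at the first gate.** -/
theorem arc_eq {a b : ℕ} (hb : b ≤ nc M) (hab : a ≤ b) :
    ∃ s ≤ F.bn a, (∀ i < F.bn a, i < s ↔ F.bt a i < F.tb a (b - a)) ∧
      Bq w (F.P a b) = H659.arc (TP w x₀) w.T w.O (F.bc a) s := by
  have h1 : F.tb a (b - a) ≤ per (TP w x₀) col (F.ob a) := by
    rw [F.per_ob, ← F.tb_nc a]
    unfold tb
    have := F.lt.mono (show a + (b - a) ≤ a + nc M by omega)
    omega
  obtain ⟨s, h2, h3, h4⟩ := (F.base_loop a).exists_cut (T1 := w.T) h1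
  refine ⟨s, h2, h3, ?_⟩
  have h5 := H609.bq_eq_arcP (F.base_loop a) (a := 0) h1
  rw [Function.iterate_zero, id, Nat.sub_zero] at h5
  rw [h4, ← h5, F.P_eq_Q hb]
  have h6 := F.base_Q (j := a) (k := 0) (l := b - a) (by omega)
  rw [F.tb_zero, add_zero, show a + (b - a) = b by omega] at h6
  rw [h6]

end Frame

end Vale.Agent.P148.R2.H172
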