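import Vale.Agent.P148.R2.H532.Map
import Vale.Agent.P148.R2.H838.Foot
import Vale.Agent.P148.R2.H565.Loc2

/-!
# Strand around a set of vertices

`ind F` is the colouring with `F` on one side. In-darts of `F` point from outside `F` into `F`.
The boundary strand of `F` visits every in-dart when `F` and its complement are connected, and the
visits of its hugging walk do not cross, even after contracting connected sets.
-/

namespace Vale.Agent.P148.R2.H172

open Function Vale.Agent.P148.R2.H258 Vale.Agent.P148.R2.H258.Tri Vale.Agent.P148.R2.H871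
  Vale.Agent.P148.R2.H532 Vale.Agent.P148.R2.H565 Vale.Agent.P148.R2.H838

variable {V D : Type*}

/-- joined by a walk inside `S` -/
def JoinIn (T : Tri V D) (S : Set V) (u v : V) : Prop :=
  u ∈ S ∧ v ∈ S ∧ ∃ l, T.Walk u v l ∧ ∀ g ∈ l, T.src g ∈ S ∧ T.tgt g ∈ S

/-- connected set of vertices -/
def ConnS (T : Tri V D) (S : Set V) : Prop := ∀ u ∈ S, ∀ v ∈ S, JoinIn T S u v

open Classical in
/-- colouring: `true` on `F` -/
noncomputable def ind (F : Set V) : V → Bool := fun v => decide (v ∈ F)

theorem ind_true {F : Set V} {v : V} : ind F v = true ↔ v ∈ F := by simp [ind]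

theorem ind_false {F : Set V} {v : V} : ind F v = false ↔ v ∉ F := by simp [ind]

/-- in-darts of `F` -/
def InD (T : Tri V D) (F : Set V) (f : D) : Prop := T.src f ∉ F ∧ T.tgt f ∈ F

variable {T : Tri V D} {F S : Set V} {f g : D}

theorem InD.bi (h : InD T F f) : T.Bi (ind F) f := by
  unfold Tri.Bi
  rw [ind_false.2 h.1, ind_true.2 h.2]
  decide

theorem inD_iter (h : InD T F f) (n : ℕ) : InD T F ((T.st (ind F))^[n] f) := by
  have h1 := T.col_src_iter (ind F) f n
  have h2 := T.col_tgt_iter (ind F) f n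
  rw [ind_false.2 h.1] at h1
  rw [ind_true.2 h.2] at h2
  exact ⟨ind_false.1 h1, ind_true.1 h2⟩

theorem InD.st_out (h : InD T F f) (ha : T.apex f ∉ F) : T.st (ind F) f = T.rev (T.nxt f) := by
  apply T.st_mi
  refine ⟨h.bi, ?_⟩
  rw [ind_false.2 h.1, ind_false.2 ha]

theorem InD.st_in (h : InD T F f) (ha : T.apex f ∈ F) :
    T.st (ind F) f = T.rev (T.nxt (T.nxt f)) := by
  apply T.st_nmi h.bi
  rintro ⟨-, h2⟩
  rw [ind_false.2 h.1, ind_true.2 ha] at h2
  exact absurd h2 (by decide)

theorem InD.src_out (h : InD T F f) (ha : T.apex f ∉ F) : T.src (T.st (ind F) f) = T.apex f := by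
  rw [h.st_out ha, T.src_rev, T.tgt_nxt]

theorem InD.src_in (h : InD T F f) (ha : T.apex f ∈ F) : T.src (T.st (ind F) f) = T.src f := by
  rw [h.st_in ha, T.src_rev, T.tgt_nxt2]

open Classical in
/-- collapse of a set to one of its points -/
noncomputable def col (S : Set V) (s : V) : V → V := fun v => if v ∈ S then s else v

theorem col_mem {s v : V} (h : v ∈ S) : col S s v = s := by simp [col, h]

theorem col_not {s v : V} (h : v ∉ S) : col S s v = v := by simp [col, h]

theorem fib_col {s : V} (hS : ConnS T S) (hs : s ∈ S) : FibConn T (col S s) := by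
  intro d e hde
  by_cases h1 : T.src d ∈ S
  · by_cases h2 : T.src e ∈ S
    · obtain ⟨-, -, l, hl, hlm⟩ := hS _ h1 _ h2
      refine ⟨l, hl, fun g hg => ?_⟩
      rw [col_mem h1, col_mem (hlm g hg).1, col_mem (hlm g hg).2]
      exact ⟨rfl, rfl⟩
    · rw [col_mem h1, col_not h2] at hde
      exact absurd (hde ▸ hs) h2
  · by_cases h2 : T.src e ∈ S
    · rw [col_not h1, col_mem h2] at hde
      exact absurd (hde ▸ hs) h1
    · rw [col_not h1, col_not h2] at hde
      rw [hde]
      exact ⟨[], Walk.nil _, by simp⟩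

theorem walk_tmap {V1 : Type*} {π : V → V1} (hfib : FibConn T π) {u v : V} {l : List D}
    (hl : T.Walk u v l) : (tmap T π hfib).Walk (π u) (π v) l := by
  induction hl with
  | nil v => exact Walk.nil _
  | cons d w l _ ih => exact Walk.cons (T := tmap T π hfib) d _ l ih

/-- Planar non crossing after a contraction with connected fibres. -/
theorem non_cross_fib [Finite D] (hP : T.Planar) {V1 : Type*} {π : V → V1} (hfib : FibConn T π)
    {σ1 : V1 → Bool} (hcomp : σ1 ∘ π = ind F) (hf : InD T F f) {i j k l : ℕ}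
    (hij : i < j) (hjk : j < k) (hkl : k < l) (hl : l ≤ i + per T (ind F) f)
    (hik : π (sa T (ind F) f k) = π (sa T (ind F) f i))
    (hjl : π (sa T (ind F) f l) = π (sa T (ind F) f j)) :
    π (sa T (ind F) f j) = π (sa T (ind F) f i) := by
  have hst : (tmap T π hfib).st σ1 = T.st (ind F) := by
    rw [tmap_st, hcomp]
  have hsa : ∀ n, sa (tmap T π hfib) σ1 f n = π (sa T (ind F) f n) := by
    intro n
    unfold sa
    rw [hst]
    rfl
  have hper : per (tmap T π hfib) σ1 f = per T (ind F) f := by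
    unfold per
    rw [hst]
  have hb : (tmap T π hfib).Bi σ1 f := by
    have := hf.bi
    rw [tmap_bi, hcomp]
    exact this
  have := non_cross (tmap T π hfib) (planar_tmap hP) hb hij hjk hkl
    (by rw [hper]; exact hl) (by rw [hsa, hsa]; exact hik) (by rw [hsa, hsa]; exact hjl)
  rwa [hsa, hsa] at this

/-- Planar non crossing after a contraction: `S` connected, off `F`. -/
theorem non_cross_col [Finite D] (hP : T.Planar) {s : V} (hS : ConnS T S) (hs : s ∈ S)
    (hSF : Disjoint S F) (hf : InD T F f) {i j k l : ℕ} (hij : i < j) (hjk : j < k) (hkl : k < l)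
    (hl : l ≤ i + per T (ind F) f)
    (hik : col S s (sa T (ind F) f k) = col S s (sa T (ind F) f i))
    (hjl : col S s (sa T (ind F) f l) = col S s (sa T (ind F) f j)) :
    col S s (sa T (ind F) f j) = col S s (sa T (ind F) f i) := by
  refine non_cross_fib hP (fib_col hS hs) (σ1 := ind F) ?_ hf hij hjk hkl hl hik hjl
  funext v
  by_cases hv : v ∈ S
  · rw [comp_apply, col_mem hv, ind_false.2 (Set.disjoint_left.1 hSF hs),
      ind_false.2 (Set.disjoint_left.1 hSF hv)]
  · rw [comp_apply, col_not hv]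

open Classical in
/-- Two connected pieces `U`, `G` of the outside of `F`: their visits do not cross. -/
theorem non_cross_two [Finite D] (hP : T.Planar) {U G : Set V} (hU : ConnS T U) (hG : ConnS T G)
    (hUG : Disjoint U G) (hUF : Disjoint U F) (hGF : Disjoint G F)
    (hf : InD T F f) {i j k l : ℕ} (hij : i < j) (hjk : j < k) (hkl : k < l)
    (hl : l ≤ i + per T (ind F) f)
    (hi : sa T (ind F) f i ∈ G) (hj : sa T (ind F) f j ∈ U) (hk : sa T (ind F) f k ∈ G)
    (hl' : sa T (ind F) f l ∈ U) : False := by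
  set u0 := sa T (ind F) f j with hu0
  set g0 := sa T (ind F) f i with hg0
  have hfib : FibConn T (fun v => col U u0 (col G g0 v)) := by
    have e1 : ∀ v, v ∈ G → col U u0 (col G g0 v) = g0 := fun v hv => by
      rw [col_mem hv, col_not (Set.disjoint_right.1 hUG hi)]
    have e2 : ∀ v, v ∈ U → col U u0 (col G g0 v) = u0 := fun v hv => by
      rw [col_not (Set.disjoint_left.1 hUG hv), col_mem hv]
    have e3 : ∀ v, v ∉ U → v ∉ G → col U u0 (col G g0 v) = v := fun v hv hv' => by
      rw [col_not hv', col_not hv]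
    intro d e hde
    simp only at hde
    by_cases hdG : T.src d ∈ G
    · by_cases heG : T.src e ∈ G
      · obtain ⟨-, -, l, hl, hlm⟩ := hG _ hdG _ heG
        refine ⟨l, hl, fun g hg => ?_⟩
        simp only
        rw [e1 _ hdG, e1 _ (hlm g hg).1, e1 _ (hlm g hg).2]
        exact ⟨rfl, rfl⟩
      · by_cases heU : T.src e ∈ U
        · rw [e1 _ hdG, e2 _ heU] at hde
          exact absurd (hde ▸ hi) (Set.disjoint_left.1 hUG hj)
        · rw [e1 _ hdG, e3 _ heU heG] at hde
          exact absurd (hde ▸ hi) heG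
    · by_cases hdU : T.src d ∈ U
      · by_cases heU : T.src e ∈ U
        · obtain ⟨-, -, l, hl, hlm⟩ := hU _ hdU _ heU
          refine ⟨l, hl, fun g hg => ?_⟩
          simp only
          rw [e2 _ hdU, e2 _ (hlm g hg).1, e2 _ (hlm g hg).2]
          exact ⟨rfl, rfl⟩
        · by_cases heG : T.src e ∈ G
          · rw [e2 _ hdU, e1 _ heG] at hde
            exact absurd (hde ▸ hj) (Set.disjoint_right.1 hUG hi)
          · rw [e2 _ hdU, e3 _ heU heG] at hde
            exact absurd (hde ▸ hj) heU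
      · by_cases heG : T.src e ∈ G
        · rw [e3 _ hdU hdG, e1 _ heG] at hde
          exact absurd (hde ▸ hi) hdG
        · by_cases heU : T.src e ∈ U
          · rw [e3 _ hdU hdG, e2 _ heU] at hde
            exact absurd (hde ▸ hj) hdU
          · rw [e3 _ hdU hdG, e3 _ heU heG] at hde
            rw [hde]
            exact ⟨[], Walk.nil _, by simp⟩
  have hcomp : (ind F) ∘ (fun v => col U u0 (col G g0 v)) = ind F := by
    funext v
    rw [comp_apply]
    by_cases hvG : v ∈ G
    · rw [col_mem hvG, col_not (Set.disjoint_right.1 hUG hi),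
        ind_false.2 (Set.disjoint_left.1 hGF hvG), ind_false.2 (Set.disjoint_left.1 hGF hi)]
    · rw [col_not hvG]
      by_cases hvU : v ∈ U
      · rw [col_mem hvU, ind_false.2 (Set.disjoint_left.1 hUF hvU),
          ind_false.2 (Set.disjoint_left.1 hUF hj)]
      · rw [col_not hvU]
  have h := non_cross_fib hP hfib hcomp hf hij hjk hkl hl
    (by rw [col_mem hk, ← hg0, col_mem hi])
    (by
      rw [col_not (Set.disjoint_left.1 hUG hl'), col_mem hl', ← hu0,
        col_not (Set.disjoint_left.1 hUG hj), col_mem hj])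
  rw [← hu0, ← hg0, col_not (Set.disjoint_left.1 hUG hj), col_mem hj, col_mem hi,
    col_not (Set.disjoint_right.1 hUG hi)] at h
  exact Set.disjoint_left.1 hUG hj (h ▸ hi)

theorem sa_not_mem (hf : InD T F f) (n : ℕ) : sa T (ind F) f n ∉ F := (inD_iter hf n).1

theorem sa_adj (hf : InD T F f) (n : ℕ) :
    ∃ g, T.src g = sa T (ind F) f n ∧ T.tgt g ∈ F := ⟨_, rfl, (inD_iter hf n).2⟩

/-- **(P1)** If every neighbour of `F` outside `F` is adjacent to a connected set `C` (disjoint from
`F` and from these neighbours), then the visits of each neighbour are consecutive. -/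
theorem contiguous [Finite D] (hP : T.Planar) {C : Set V} (hC : ConnS T C) (hCF : Disjoint C F)
    (hN : ∀ g, T.src g ∉ F → T.tgt g ∈ F → T.src g ∉ C ∧ ∃ g', T.src g' = T.src g ∧ T.tgt g' ∈ C)
    (hf : InD T F f) {i j k l : ℕ} (hij : i < j) (hjk : j < k) (hkl : k < l)
    (hl : l ≤ i + per T (ind F) f)
    (hik : sa T (ind F) f k = sa T (ind F) f i) (hne : sa T (ind F) f j ≠ sa T (ind F) f i) :
    sa T (ind F) f l = sa T (ind F) f i := by
  by_contra hcon
  set v := sa T (ind F) f i with hv
  set S : Set V := C ∪ {n | n ∉ F ∧ (∃ g, T.src g = n ∧ T.tgt g ∈ F) ∧ n ≠ v} with hS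
  have hCS : C ⊆ S := Set.subset_union_left
  -- every vertex of `S` is joined to `C` inside `S`
  have hto : ∀ n ∈ S, ∃ c ∈ C, JoinIn T S n c := by
    rintro n (hn | ⟨hn1, ⟨g, hg1, hg2⟩, hn3⟩)
    · exact ⟨n, hn, hCS hn, hCS hn, [], Walk.nil _, by simp⟩
    · obtain ⟨-, g', hg1', hg2'⟩ := hN g (by rw [hg1]; exact hn1) hg2
      have hnS : n ∈ S := Or.inr ⟨hn1, ⟨g, hg1, hg2⟩, hn3⟩
      refine ⟨T.tgt g', hg2', hnS, hCS hg2', [g'], ?_, ?_⟩
      · have := Walk.single (T := T) g'
        rwa [hg1', hg1] at this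
      · intro x hx
        rw [List.mem_singleton] at hx
        subst hx
        exact ⟨by rw [hg1', hg1]; exact hnS, hCS hg2'⟩
  have hconn : ConnS T S := by
    intro a ha b hb
    obtain ⟨c, hc, -, -, l1, hl1, hm1⟩ := hto a ha
    obtain ⟨c', hc', -, -, l2, hl2, hm2⟩ := hto b hb
    obtain ⟨-, -, l3, hl3, hm3⟩ := hC c hc c' hc'
    refine ⟨ha, hb, l1 ++ (l3 ++ (l2.map T.rev).reverse), hl1.append (hl3.append hl2.reverse), ?_⟩
    intro g hg
    rw [List.mem_append, List.mem_append, List.mem_reverse, List.mem_map] at hg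
    rcases hg with hg | hg | ⟨g', hg', rfl⟩
    · exact hm1 g hg
    · exact ⟨hCS (hm3 g hg).1, hCS (hm3 g hg).2⟩
    · rw [T.src_rev, T.tgt_rev]; exact ⟨(hm2 g' hg').2, (hm2 g' hg').1⟩
  have hmem : ∀ n, sa T (ind F) f n ≠ v → sa T (ind F) f n ∈ S := fun n hn =>
    Or.inr ⟨sa_not_mem hf n, sa_adj hf n, hn⟩
  have hvS : v ∉ S := by
    rintro (h | h)
    · exact (hN _ (inD_iter hf i).1 (inD_iter hf i).2).1 h
    · exact h.2.2 rfl
  have hSF : Disjoint S F := by
    rw [Set.disjoint_left]
    rintro x (hx | hx)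
    · exact Set.disjoint_left.1 hCF hx
    · exact hx.1
  have hs := hmem j hne
  have := non_cross_col hP hconn hs hSF hf hij hjk hkl hl
    (by rw [hik]) (by rw [col_mem (hmem l hcon), col_mem hs])
  rw [col_mem hs, ← hv, col_not hvS] at this
  exact hvS (this ▸ hs)

/-- **Single orbit**: if `F` and its complement are connected, all in-darts are on one strand. -/
theorem single_orbit [Finite D] (hP : T.Planar) (hF : ConnS T F) (hFc : ConnS T Fᶜ)
    (hf : InD T F f) (hg : InD T F g) : ∃ j, (T.st (ind F))^[j] f = g := by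
  set O := T.tgt f with hO
  have hOF : O ∈ F := hf.2
  have hfib := fib_col hF hOF
  set T1 := tmap T (col F O) hfib with hT1
  have hr : ∀ x, InD T F x → OutD T1 O (T.rev x) := by
    intro x hx
    constructor
    · change col F O (T.src (T.rev x)) = O
      rw [T.src_rev, col_mem hx.2]
    · change col F O (T.tgt (T.rev x)) ≠ O
      rw [T.tgt_rev, col_not hx.1]
      intro h
      exact hx.1 (h ▸ hOF)
  have htour : ∀ x, InD T F x → T.rev (T.st (ind F) x) = tour T1 O (T.rev x) := by
    intro x hx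
    by_cases ha : T.apex x ∈ F
    · rw [hx.st_in ha, T.rev_rev]
      have h1 : T1.apex (T1.rev (T.rev x)) = O := by
        change col F O (T.apex (T.rev (T.rev x))) = O
        rw [T.rev_rev, col_mem ha]
      rw [tour_pos h1]
      change _ = T.nxt (T.nxt (T.rev (T.rev x)))
      rw [T.rev_rev]
    · rw [hx.st_out ha, T.rev_rev]
      have h1 : T1.apex (T1.rev (T.rev x)) ≠ O := by
        change col F O (T.apex (T.rev (T.rev x))) ≠ O
        rw [T.rev_rev, col_not ha]
        intro h
        exact ha (h ▸ hOF)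
      rw [tour_neg h1]
      change _ = T.nxt (T.rev (T.rev x))
      rw [T.rev_rev]
  have hiter : ∀ n, T.rev ((T.st (ind F))^[n] f) = (tour T1 O)^[n] (T.rev f) := by
    intro n
    induction n with
    | zero => rfl
    | succ n ih =>
      rw [iterate_succ', comp_apply, htour _ (inD_iter hf n), ih, ← comp_apply (f := tour T1 O),
        ← iterate_succ']
  have hw : WalkOff T1 O (T1.tgt (T.rev f)) (T1.tgt (T.rev g)) := by
    obtain ⟨-, -, l, hl, hlm⟩ := hFc (T.src f) hf.1 (T.src g) hg.1
    have hne : ∀ v, v ∉ F → col F O v ≠ O := by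
      intro v hv h
      rw [col_not hv] at h
      exact hv (h ▸ hOF)
    have e1 : T1.tgt (T.rev f) = col F O (T.src f) := by
      change col F O (T.tgt (T.rev f)) = _
      rw [T.tgt_rev]
    have e2 : T1.tgt (T.rev g) = col F O (T.src g) := by
      change col F O (T.tgt (T.rev g)) = _
      rw [T.tgt_rev]
    refine ⟨by rw [e1]; exact hne _ hf.1, l, ?_, ?_⟩
    · rw [e1, e2]
      exact walk_tmap hfib hl
    · intro x hx
      exact ⟨hne _ (hlm x hx).1, hne _ (hlm x hx).2⟩
  obtain ⟨j, hj⟩ := tour_orbit (planar_tmap hP) (hr f hf) (hr g hg) hw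
  refine ⟨j, ?_⟩
  have := hiter j
  rw [hj] at this
  have h2 := congrArg T.rev this
  rwa [T.rev_rev, T.rev_rev] at h2

/-- the piece of the hugging walk between two times -/
theorem hug (hf : InD T F f) {a b : ℕ} (hab : a ≤ b) :
    ∃ l, T.Walk (sa T (ind F) f a) (sa T (ind F) f b) l ∧
      ∀ g ∈ l, (∃ t, a ≤ t ∧ t ≤ b ∧ T.src g = sa T (ind F) f t) ∧
        ∃ t, a ≤ t ∧ t ≤ b ∧ T.tgt g = sa T (ind F) f t := by
  refine ⟨T.lw (ind F) ((T.st (ind F))^[a] f) (b - a), ?_, ?_⟩
  · have := T.lw_walk (inD_iter hf a).bi (b - a)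
    rw [← iterate_add_apply, Nat.sub_add_cancel hab] at this
    exact this
  · intro g hg
    obtain ⟨i, hi, h1, h2⟩ := T.lw_mem hg
    rw [← iterate_add_apply] at h1 h2
    exact ⟨⟨i + a, by omega, by omega, h1⟩, ⟨i + 1 + a, by omega, by omega, h2⟩⟩

end Vale.Agent.P148.R2.H172
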