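import Vale.Agent.P148.R2.H172.Gate1

/-!
# Blob gate: one foot, two black walks which only share the foot, white walks

`C` connected (explored white cluster), `F` the far component of the complement of `C` and its black
boundary, `E ⊆ F` the far component after the second exploration (the white arch is the part of
`F \ E` next to `E`).
-/

namespace Vale.Agent.P148.R2.H172

open Function Vale.Agent.P148.R2.H258 Vale.Agent.P148.R2.H258.Tri Vale.Agent.P148.R2.H871
  Vale.Agent.P148.R2.H532 Vale.Agent.P148.R2.H565 Vale.Agent.P148.R2.H838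

variable {V D : Type*} {T : Tri V D}

/-- vertices of a walk from `u` -/
def vs (T : Tri V D) (u : V) (l : List D) : Set V := {v | v = u ∨ ∃ g ∈ l, T.tgt g = v}

/-- the vertices outside `F` next to `F` -/
def outB (T : Tri V D) (F : Set V) : Set V := {v | v ∉ F ∧ ∃ g, T.src g = v ∧ T.tgt g ∈ F}

/-- a walk inside a set -/
def WIn (T : Tri V D) (S : Set V) (u v : V) (l : List D) : Prop :=
  T.Walk u v l ∧ ∀ g ∈ l, T.src g ∈ S ∧ T.tgt g ∈ S

theorem WIn.reverse {S : Set V} {u v : V} {l : List D} (h : WIn T S u v l) :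
    WIn T S v u (l.map T.rev).reverse := by
  refine ⟨h.1.reverse, fun g hg => ?_⟩
  rw [List.mem_reverse, List.mem_map] at hg
  obtain ⟨g', hg', rfl⟩ := hg
  rw [T.src_rev, T.tgt_rev]
  exact ⟨(h.2 g' hg').2, (h.2 g' hg').1⟩

/-- the output of a blob gate -/
structure GateOut (T : Tri V D) (N M : Set V) (bL bR : V) (d : D) (pL pR : List D) : Prop where
  src : T.src d ∈ N
  tgt : T.tgt d ∈ M
  wL : WIn T N bL (T.src d) pL
  wR : WIn T N (T.src d) bR pR
  disj : ∀ x, x ∈ vs T bL pL → x ∈ vs T (T.src d) pR → x = T.src d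
  white : ∀ w ∈ M, ∃ q, WIn T M w (T.tgt d) q

section

variable {F : Set V} {f : D}

/-- hugging walk between two times, as a walk inside a set containing the visited vertices -/
theorem hug_in (hf : InD T F f) {S : Set V} {a b : ℕ} (hab : a ≤ b)
    (hS : ∀ t, a ≤ t → t ≤ b → sa T (ind F) f t ∈ S) :
    ∃ l, WIn T S (sa T (ind F) f a) (sa T (ind F) f b) l ∧
      (∀ x ∈ vs T (sa T (ind F) f a) l, ∃ t, a ≤ t ∧ t ≤ b ∧ x = sa T (ind F) f t) ∧
      (∀ x ∈ vs T (sa T (ind F) f b) (l.map T.rev).reverse,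
        ∃ t, a ≤ t ∧ t ≤ b ∧ x = sa T (ind F) f t) := by
  obtain ⟨l, hl, hm⟩ := hug hf hab
  refine ⟨l, ⟨hl, fun g hg => ?_⟩, ?_, ?_⟩
  · obtain ⟨⟨t, h1, h2, h3⟩, t', h1', h2', h3'⟩ := hm g hg
    rw [h3, h3']
    exact ⟨hS t h1 h2, hS t' h1' h2'⟩
  · rintro x (rfl | ⟨g, hg, rfl⟩)
    · exact ⟨a, le_rfl, hab, rfl⟩
    · exact (hm g hg).2
  · rintro x (rfl | ⟨g, hg, rfl⟩)
    · exact ⟨b, hab, le_rfl, rfl⟩
    · rw [List.mem_reverse, List.mem_map] at hg
      obtain ⟨g', hg', rfl⟩ := hg
      rw [T.tgt_rev]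
      exact (hm g' hg').1

/-- Every in-dart is met in less than a period. -/
theorem single_orbit_lt [Finite D] (hP : T.Planar) (hF : ConnS T F) (hFc : ConnS T Fᶜ)
    (hf : InD T F f) {g : D} (hg : InD T F g) :
    ∃ j < per T (ind F) f, (T.st (ind F))^[j] f = g := by
  obtain ⟨j, hj⟩ := single_orbit hP hF hFc hf hg
  refine ⟨j % per T (ind F) f, Nat.mod_lt _ (per_pos T _ _), ?_⟩
  rw [← hj]
  exact iterate_mod_minimalPeriod_eq

end

/-- **The gate lemma.** -/
theorem gate [Finite D] (hP : T.Planar) {C F E : Set V} (hC : ConnS T C) (hCF : Disjoint C F)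
    (hN : ∀ g, T.src g ∉ F → T.tgt g ∈ F → T.src g ∉ C ∧ ∃ g', T.src g' = T.src g ∧ T.tgt g' ∈ C)
    (hEF : E ⊆ F) (hU : ConnS T Fᶜ) (hG : ConnS T (F \ E)) (hE : ConnS T E) (hEc : ConnS T Eᶜ)
    {gL gR gW : D} (hgL : T.src gL ∉ F) (hgL' : T.tgt gL ∈ E) (hgR : T.src gR ∉ F)
    (hgR' : T.tgt gR ∈ E) (hne : T.src gL ≠ T.src gR)
    (hgW : T.src gW ∈ F \ E) (hgW' : T.tgt gW ∈ E) :
    ∃ d pL pR, GateOut T (outB T F) ((F \ E) ∩ outB T E) (T.src gL) (T.src gR) d pL pR := by
  classical
  have iL : InD T E gL := ⟨fun h => hgL (hEF h), hgL'⟩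
  have iR : InD T E gR := ⟨fun h => hgR (hEF h), hgR'⟩
  have iW : InD T E gW := ⟨hgW.2, hgW'⟩
  set L' := per T (ind E) gW with hL'
  set s := fun n => sa T (ind E) gW n with hs
  have hUG : Disjoint (Fᶜ) (F \ E) := by
    rw [Set.disjoint_left]; intro x hx hx'; exact hx hx'.1
  have hUE : Disjoint (Fᶜ) E := by
    rw [Set.disjoint_left]; intro x hx hx'; exact hx (hEF hx')
  have hGE : Disjoint (F \ E) E := by
    rw [Set.disjoint_left]; intro x hx hx'; exact hx.2 hx'
  have hsE : ∀ n, s n ∉ E := fun n => sa_not_mem iW n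
  have hsG : ∀ n, s n ∈ F → s n ∈ F \ E := fun n h => ⟨h, hsE n⟩
  have hs0 : s 0 ∈ F \ E := hgW
  have hsL : s L' ∈ F \ E := by
    have : s L' = T.src gW := sa_per T _ _
    rw [this]; exact hgW
  obtain ⟨jL, hjL, ejL⟩ := single_orbit_lt hP hE hEc iW iL
  obtain ⟨jR, hjR, ejR⟩ := single_orbit_lt hP hE hEc iW iR
  have sjL : s jL = T.src gL := by simp only [hs, sa]; rw [ejL]
  have sjR : s jR = T.src gR := by simp only [hs, sa]; rw [ejR]
  -- the outside times form an interval
  have hint : ∀ t1 t t2, t1 ≤ t → t ≤ t2 → t2 < L' → s t1 ∉ F → s t2 ∉ F → s t ∉ F := by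
    intro t1 t t2 h1 h2 h3 h4 h5 h6
    have ht1 : 0 < t1 := by
      rcases Nat.eq_zero_or_pos t1 with rfl | h
      · exact absurd hs0.1 h4
      · exact h
    have ht : t1 ≠ t := by rintro rfl; exact h4 h6
    have ht' : t ≠ t2 := by rintro rfl; exact h5 h6
    exact non_cross_two hP hU hG hUG hUE hGE iW (i := 0) (j := t1) (k := t) (l := t2)
      ht1 (by omega) (by omega) (by omega) hs0 h4 (hsG t h6) h5
  have hexA : ∃ n, s n ∉ F := ⟨jL, by rw [sjL]; exact hgL⟩
  set α := Nat.find hexA with hα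
  have hαs : s α ∉ F := Nat.find_spec hexA
  have hαmin : ∀ n, n < α → s n ∈ F := fun n hn => not_not.1 (Nat.find_min hexA hn)
  have hαL : α ≤ jL := Nat.find_min' hexA (by rw [sjL]; exact hgL)
  have hαR : α ≤ jR := Nat.find_min' hexA (by rw [sjR]; exact hgR)
  set β := Nat.findGreatest (fun n => s n ∉ F) (L' - 1) with hβ
  have hβs : s β ∉ F :=
    Nat.findGreatest_spec (P := fun n => s n ∉ F) (m := jL) (by omega) (by rw [sjL]; exact hgL)
  have hβle : β ≤ L' - 1 := Nat.findGreatest_le _
  have hβL : jL ≤ β := Nat.le_findGreatest (by omega) (by rw [sjL]; exact hgL)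
  have hβR : jR ≤ β := Nat.le_findGreatest (by omega) (by rw [sjR]; exact hgR)
  have hβmax : ∀ n, β < n → n ≤ L' → s n ∈ F := by
    intro n h1 h2
    rcases h2.lt_or_eq with h3 | h3
    · by_contra hc
      exact Nat.findGreatest_is_greatest (P := fun n => s n ∉ F) h1 (by omega) hc
    · rw [h3]; exact hsL.1
  have hLpos : 0 < L' := per_pos T _ _
  have hβL' : β < L' := by omega
  have hmid : ∀ n, α ≤ n → n ≤ β → s n ∉ F := fun n h1 h2 => hint α n β h1 h2 hβL' hαs hβs
  -- the darts
  set fn := fun n => (T.st (ind E))^[n] gW with hfn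
  have hfnE : ∀ n, InD T E (fn n) := fun n => inD_iter iW n
  have hsucc : ∀ n, fn (n + 1) = T.st (ind E) (fn n) := fun n => iterate_succ_apply' _ _ _
  have hsrc : ∀ n, T.src (fn n) = s n := fun n => rfl
  have hfF : ∀ n, s n ∉ F → InD T F (fn n) := fun n h => ⟨h, hEF (hfnE n).2⟩
  -- one step of the two strands agree while the source stays outside `F`
  have hagree : ∀ n, s n ∉ F → s (n + 1) ∉ F → T.st (ind F) (fn n) = fn (n + 1) := by
    intro n h1 h2
    rw [hsucc]
    by_cases ha : T.apex (fn n) ∈ E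
    · rw [(hfnE n).st_in ha, (hfF n h1).st_in (hEF ha)]
    · have e1 : s (n + 1) = T.apex (fn n) := by
        rw [← hsrc, hsucc, (hfnE n).src_out ha]
      rw [(hfnE n).st_out ha, (hfF n h1).st_out (by rw [← e1]; exact h2)]
  -- the foot
  have hb1 : s (β + 1) ∈ F \ E := hsG _ (hβmax _ (by omega) (by omega))
  have hapE : T.apex (fn β) ∉ E := by
    intro ha
    have : s (β + 1) = s β := by
      rw [← hsrc, hsucc, (hfnE β).src_in ha, hsrc]
    rw [this] at hb1
    exact hβs hb1.1
  have hap : T.apex (fn β) = s (β + 1) := by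
    rw [← hsrc, hsucc, (hfnE β).src_out hapE]
  set d := T.st (ind F) (fn β) with hd
  have hapF : T.apex (fn β) ∈ F := by rw [hap]; exact hb1.1
  have hdeq : d = T.rev (T.nxt (T.nxt (fn β))) := (hfF β hβs).st_in hapF
  have hdsrc : T.src d = s β := by rw [hdeq, T.src_rev, T.tgt_nxt2, hsrc]
  have hdtgt : T.tgt d = s (β + 1) := by
    rw [hdeq, T.tgt_rev, T.src_nxt2, hap]
  -- the strand of `F` from `fn α`
  set m := β - α with hm
  have iA : InD T F (fn α) := hfF α hαs
  have hitF : ∀ k, k ≤ m → (T.st (ind F))^[k] (fn α) = fn (α + k) := by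
    intro k
    induction k with
    | zero => intro _; rfl
    | succ k ih =>
      intro hk
      rw [iterate_succ', comp_apply, ih (by omega),
        hagree (α + k) (hmid _ (by omega) (by omega)) (hmid _ (by omega) (by omega))]
      rfl
  have hαβ : α ≤ β := by omega
  have hitd : (T.st (ind F))^[m + 1] (fn α) = d := by
    rw [iterate_succ', comp_apply, hitF m le_rfl, show α + m = β by omega]
  set sF := fun n => sa T (ind F) (fn α) n with hsF
  set L := per T (ind F) (fn α) with hL
  have hsFk : ∀ k, k ≤ m → sF k = s (α + k) := by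
    intro k hk
    simp only [hsF, sa]
    rw [hitF k hk, hsrc]
  have hsFd : sF (m + 1) = s β := by
    simp only [hsF, sa]
    rw [hitd, hdsrc]
  have hsFm : sF m = s β := by rw [hsFk m le_rfl, show α + m = β by omega]
  have hLm : m + 1 < L := by
    by_contra hcon
    push Not at hcon
    have hLp : 0 < L := per_pos T _ _
    have hret : (T.st (ind F))^[L] (fn α) = fn α := iterate_minimalPeriod
    rcases hcon.lt_or_eq with h1 | h1
    · rw [hitF L (by omega)] at hret
      have h3 : per T (ind E) (fn α) = L' := per_iter T _ _ α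
      have h4 : IsPeriodicPt (T.st (ind E)) L (fn α) := by
        have : (T.st (ind E))^[L] (fn α) = fn α := by
          have e : (T.st (ind E))^[L] (fn α) = fn (α + L) := by
            simp only [hfn]
            rw [← iterate_add_apply, add_comm L α]
          rw [e, hret]
        exact this
      have h5 := h4.minimalPeriod_le hLp
      change per T (ind E) (fn α) ≤ L at h5
      omega
    · rw [h1, hitd] at hret
      have h2 := (hfnE α).2
      rw [← hret, hdtgt] at h2
      exact hb1.2 h2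
  have hsFL : ∀ k, sF (L + k) = sF k := by
    intro k
    rw [add_comm]
    exact sa_add_per T _ _ k
  have hsFN : ∀ k, sF k ∈ outB T F := fun k => ⟨sa_not_mem iA k, sa_adj iA k⟩
  set xL := jL - α with hxL
  set xR := jR - α with hxR
  have sxL : sF xL = T.src gL := by
    rw [hsFk xL (by omega), show α + xL = jL by omega, sjL]
  have sxR : sF xR = T.src gR := by
    rw [hsFk xR (by omega), show α + xR = jR by omega, sjR]
  have hxne : xL ≠ xR := by
    intro h
    apply hne
    rw [← sxL, ← sxR, h]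
  -- disjointness of the two arcs
  have hcore : ∀ x1 x2, x2 < x1 → x1 ≤ m → sF x1 ≠ sF x2 → ∀ t t', x1 ≤ t → t ≤ m →
      m + 1 ≤ t' → t' ≤ L + x2 → sF t = sF t' → sF t = s β := by
    intro x1 x2 h1 h2 h3 t t' h4 h5 h6 h7 h8
    by_contra hc
    have htm : t < m := by
      rcases h5.lt_or_eq with h | h
      · exact h
      · rw [h, hsFm] at hc; exact absurd rfl hc
    have hfin : ∀ l, t' ≤ l → l ≤ t + L → sF l = sF t := by
      intro l h9 h10
      rcases h9.lt_or_eq with h | h
      · exact contiguous hP hC hCF hN iA (i := t) (j := m) (k := t') (l := l) htm (by omega) h h10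
          h8.symm (by
            intro hh
            apply hc
            have : sF m = sF t := hh
            rw [← this, hsFm])
      · rw [← h]; exact h8.symm
    apply h3
    rw [← hsFL x1, ← hsFL x2, hfin (L + x1) (by omega) (by omega), hfin (L + x2) h7 (by omega)]
  -- the white walks
  have hwhite : ∀ w ∈ (F \ E) ∩ outB T E, ∃ q, WIn T ((F \ E) ∩ outB T E) w (T.tgt d) q := by
    rintro w ⟨hwG, hwE, g, hg1, hg2⟩
    have ig : InD T E g := ⟨by rw [hg1]; exact hwE, hg2⟩
    obtain ⟨j, hj, ej⟩ := single_orbit_lt hP hE hEc iW ig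
    have sj : s j = w := by simp only [hs, sa]; rw [ej, hg1]
    have hsper : ∀ k, s (L' + k) = s k := by
      intro k
      rw [add_comm]
      exact sa_add_per T _ _ k
    have hmem : ∀ n, s n ∈ F → s n ∈ (F \ E) ∩ outB T E := fun n hn =>
      ⟨hsG n hn, sa_not_mem iW n, sa_adj iW n⟩
    have hj' : j < α ∨ β < j := by
      by_contra hc
      push Not at hc
      exact hmid j hc.1 hc.2 (by rw [sj]; exact hwG.1)
    rcases hj' with h | h
    · have hS : ∀ t, β + 1 ≤ t → t ≤ L' + j → s t ∈ (F \ E) ∩ outB T E := by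
        intro t h1 h2
        rcases le_or_gt t L' with h3 | h3
        · exact hmem t (hβmax t (by omega) h3)
        · have e : s t = s (t - L') := by
            rw [← hsper (t - L'), show L' + (t - L') = t by omega]
          rw [e]
          exact hmem _ (hαmin _ (by omega))
      obtain ⟨l, hl, -, -⟩ := hug_in iW (S := (F \ E) ∩ outB T E) (a := β + 1) (b := L' + j)
        (by omega) hS
      have e1 : sa T (ind E) gW (L' + j) = w := by rw [← sj]; exact hsper j
      have e2 : sa T (ind E) gW (β + 1) = T.tgt d := hdtgt.symm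
      rw [e1, e2] at hl
      exact ⟨_, hl.reverse⟩
    · have hS : ∀ t, β + 1 ≤ t → t ≤ j → s t ∈ (F \ E) ∩ outB T E := by
        intro t h1 h2
        exact hmem t (hβmax t (by omega) (by omega))
      obtain ⟨l, hl, -, -⟩ := hug_in iW (S := (F \ E) ∩ outB T E) (a := β + 1) (b := j)
        (by omega) hS
      have e1 : sa T (ind E) gW j = w := sj
      have e2 : sa T (ind E) gW (β + 1) = T.tgt d := hdtgt.symm
      rw [e1, e2] at hl
      exact ⟨_, hl.reverse⟩
  have hdN : T.src d ∈ outB T F := by rw [hdsrc, ← hsFm]; exact hsFN m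
  have hdM : T.tgt d ∈ (F \ E) ∩ outB T E := by
    rw [hdtgt]
    exact ⟨hb1, sa_not_mem iW (β + 1), sa_adj iW (β + 1)⟩
  rcases lt_or_gt_of_ne hxne with hlt | hlt
  · -- the right attachment is met first
    obtain ⟨l1, hl1, -, hv1⟩ := hug_in iA (S := outB T F) (a := xR) (b := m) (by omega)
      (fun t _ _ => hsFN t)
    obtain ⟨l2, hl2, -, hv2⟩ := hug_in iA (S := outB T F) (a := m + 1) (b := L + xL) (by omega)
      (fun t _ _ => hsFN t)
    have e1 : sa T (ind F) (fn α) xR = T.src gR := sxR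
    have e2 : sa T (ind F) (fn α) m = T.src d := by rw [hdsrc]; exact hsFm
    have e3 : sa T (ind F) (fn α) (m + 1) = T.src d := by rw [hdsrc]; exact hsFd
    have e4 : sa T (ind F) (fn α) (L + xL) = T.src gL := by rw [← sxL]; exact hsFL xL
    rw [e1, e2] at hl1
    rw [e2] at hv1
    rw [e3, e4] at hl2
    rw [e4] at hv2
    refine ⟨d, _, _, hdN, hdM, hl2.reverse, hl1.reverse, ?_, hwhite⟩
    intro x hx hx'
    obtain ⟨t', h1, h2, h3⟩ := hv2 x hx
    obtain ⟨t, h4, h5, h6⟩ := hv1 x hx'
    have := hcore xR xL hlt (by omega) (by rw [sxL, sxR]; exact hne.symm) t t' h4 h5 h1 h2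
      (by change sa T (ind F) (fn α) t = sa T (ind F) (fn α) t'; rw [← h3, ← h6])
    rw [h6, hdsrc]
    exact this
  · obtain ⟨l1, hl1, hv1, -⟩ := hug_in iA (S := outB T F) (a := xL) (b := m) (by omega)
      (fun t _ _ => hsFN t)
    obtain ⟨l2, hl2, hv2, -⟩ := hug_in iA (S := outB T F) (a := m + 1) (b := L + xR) (by omega)
      (fun t _ _ => hsFN t)
    have e1 : sa T (ind F) (fn α) xL = T.src gL := sxL
    have e2 : sa T (ind F) (fn α) m = T.src d := by rw [hdsrc]; exact hsFm
    have e3 : sa T (ind F) (fn α) (m + 1) = T.src d := by rw [hdsrc]; exact hsFd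
    have e4 : sa T (ind F) (fn α) (L + xR) = T.src gR := by rw [← sxR]; exact hsFL xR
    rw [e1, e2] at hl1
    rw [e1] at hv1
    rw [e3, e4] at hl2
    rw [e3] at hv2
    refine ⟨d, _, _, hdN, hdM, hl1, hl2, ?_, hwhite⟩
    intro x hx hx'
    obtain ⟨t, h4, h5, h6⟩ := hv1 x hx
    obtain ⟨t', h1, h2, h3⟩ := hv2 x hx'
    have := hcore xL xR hlt (by omega) (by rw [sxL, sxR]; exact hne) t t' h4 h5 h1 h2
      (by change sa T (ind F) (fn α) t = sa T (ind F) (fn α) t'; rw [← h3, ← h6])
    rw [h6, hdsrc]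
    exact this

end Vale.Agent.P148.R2.H172
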