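import Vale.Agent.P148.R2.H172.Tilt

/-!
Second moments of sums of random variables which are independent off a graph of bounded degree
(1-dependent sequences, linear or cyclic), Chebyshev with a union over finitely many sums.
-/

namespace Vale.Agent.P148.R2.H172

open MeasureTheory ProbabilityTheory
open scoped ComplexConjugate ENNReal

section general

variable {Ω : Type*} [MeasurableSpace Ω] {P : Measure Ω} {ι : Type*}

theorem norm_sq_sum (s : Finset ι) (u : ι → ℂ) :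
    ‖∑ i ∈ s, u i‖ ^ 2 = ∑ i ∈ s, ∑ j ∈ s, (u i * conj (u j)).re := by
  have h : ((‖∑ i ∈ s, u i‖ ^ 2 : ℝ) : ℂ) = ∑ i ∈ s, ∑ j ∈ s, (u i * conj (u j)) := by
    rw [← Complex.normSq_eq_norm_sq, Complex.normSq_eq_conj_mul_self, map_sum, mul_comm,
      Finset.sum_mul_sum]
  have h2 := congrArg Complex.re h
  rw [Complex.ofReal_re, Complex.re_sum] at h2
  rw [h2]
  exact Finset.sum_congr rfl fun i _ => Complex.re_sum _ _

theorem integrable_mul_conj {u v : Ω → ℂ} (hu : MemLp u 2 P) (hv : MemLp v 2 P) :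
    Integrable (fun ω => u ω * conj (v ω)) P := by
  have hv' : MemLp (fun ω => conj (v ω)) 2 P := by
    refine hv.of_le (Complex.continuous_conj.comp_aestronglyMeasurable hv.1) ?_
    exact Filter.Eventually.of_forall fun ω => by simp
  exact hu.integrable_mul hv'

theorem re_integral_le {u v : Ω → ℂ} (hu : MemLp u 2 P) (hv : MemLp v 2 P) {K : ℝ}
    (h1 : ∫ ω, ‖u ω‖ ^ 2 ∂P ≤ K) (h2 : ∫ ω, ‖v ω‖ ^ 2 ∂P ≤ K) :
    ∫ ω, (u ω * conj (v ω)).re ∂P ≤ K := by
  have i1 : Integrable (fun ω => ‖u ω‖ ^ 2) P := hu.integrable_norm_pow (by norm_num)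
  have i2 : Integrable (fun ω => ‖v ω‖ ^ 2) P := hv.integrable_norm_pow (by norm_num)
  have h3 : ∫ ω, (u ω * conj (v ω)).re ∂P ≤ ∫ ω, (‖u ω‖ ^ 2 + ‖v ω‖ ^ 2) / 2 ∂P := by
    refine integral_mono (f := fun ω => (u ω * conj (v ω)).re)
      (g := fun ω => (‖u ω‖ ^ 2 + ‖v ω‖ ^ 2) / 2)
      (integrable_mul_conj hu hv).re ((i1.add i2).div_const 2) ?_
    intro ω
    have h4 : (u ω * conj (v ω)).re ≤ ‖u ω‖ * ‖v ω‖ := by
      calc (u ω * conj (v ω)).re ≤ ‖u ω * conj (v ω)‖ := Complex.re_le_norm _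
        _ = ‖u ω‖ * ‖v ω‖ := by simp
    simp only
    nlinarith [sq_nonneg (‖u ω‖ - ‖v ω‖)]
  rw [integral_div, integral_add i1 i2] at h3
  linarith

/-- second moment of a sum, uncorrelated off a graph of degree at most `d` -/
theorem second_moment_sum (s : Finset ι) (N : ι → Finset ι) (d : ℕ) {u : ι → Ω → ℂ} {K : ℝ}
    (hd : ∀ i ∈ s, (N i).card ≤ d) (h2 : ∀ i ∈ s, MemLp (u i) 2 P)
    (hK0 : 0 ≤ K) (hK : ∀ i ∈ s, ∫ ω, ‖u i ω‖ ^ 2 ∂P ≤ K)
    (h0 : ∀ i ∈ s, ∀ j ∈ s, j ∉ N i → (∫ ω, u i ω * conj (u j ω) ∂P).re = 0) :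
    ∫ ω, ‖∑ i ∈ s, u i ω‖ ^ 2 ∂P ≤ d * s.card * K := by
  classical
  simp_rw [norm_sq_sum]
  have hint : ∀ i ∈ s, ∀ j ∈ s, Integrable (fun ω => (u i ω * conj (u j ω)).re) P :=
    fun i hi j hj => (integrable_mul_conj (h2 i hi) (h2 j hj)).re
  rw [integral_finsetSum s (fun i hi => integrable_finsetSum s (hint i hi))]
  calc ∑ i ∈ s, ∫ ω, ∑ j ∈ s, (u i ω * conj (u j ω)).re ∂P
      ≤ ∑ i ∈ s, (d : ℝ) * K := by
        apply Finset.sum_le_sum
        intro i hi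
        rw [integral_finsetSum s (hint i hi)]
        calc ∑ j ∈ s, ∫ ω, (u i ω * conj (u j ω)).re ∂P
            ≤ ∑ j ∈ s, (if j ∈ N i then K else 0) := by
              apply Finset.sum_le_sum
              intro j hj
              by_cases hN : j ∈ N i
              · simp only [hN, if_true]
                exact re_integral_le (h2 i hi) (h2 j hj) (hK i hi) (hK j hj)
              · simp only [hN, if_false]
                have := h0 i hi j hj hN
                rw [← this]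
                have h3 := integral_re (𝕜 := ℂ) (integrable_mul_conj (h2 i hi) (h2 j hj))
                simpa using h3.le
          _ ≤ ∑ j ∈ N i, K := by
              rw [← Finset.sum_filter]
              apply Finset.sum_le_sum_of_subset_of_nonneg
              · intro j hj
                exact (Finset.mem_filter.mp hj).2
              · intros
                exact hK0
          _ ≤ (d : ℝ) * K := by
              rw [Finset.sum_const, nsmul_eq_mul]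
              exact mul_le_mul_of_nonneg_right (by exact_mod_cast hd i hi) hK0
    _ = d * s.card * K := by
        rw [Finset.sum_const, nsmul_eq_mul]
        ring

/-- centred version with independence off the graph -/
theorem variance_sum [IsProbabilityMeasure P] (s : Finset ι) (N : ι → Finset ι) (d : ℕ)
    {v : ι → Ω → ℂ} {K : ℝ}
    (hd : ∀ i ∈ s, (N i).card ≤ d) (h2 : ∀ i ∈ s, MemLp (v i) 2 P)
    (hK0 : 0 ≤ K) (hK : ∀ i ∈ s, ∫ ω, ‖v i ω‖ ^ 2 ∂P ≤ K)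
    (hind : ∀ i ∈ s, ∀ j ∈ s, j ∉ N i → IndepFun (v i) (v j) P) :
    ∫ ω, ‖∑ i ∈ s, (v i ω - ∫ ω', v i ω' ∂P)‖ ^ 2 ∂P ≤ d * s.card * K := by
  have hm : ∀ i ∈ s, MemLp (fun ω => v i ω - ∫ ω', v i ω' ∂P) 2 P := fun i hi =>
    (h2 i hi).sub (memLp_const _)
  refine second_moment_sum s N d hd hm hK0 ?_ ?_
  · intro i hi
    refine le_trans ?_ (hK i hi)
    have i1 : Integrable (v i) P := (h2 i hi).integrable (by norm_num)
    have i2 : Integrable (fun ω => ‖v i ω‖ ^ 2) P := (h2 i hi).integrable_norm_pow (by norm_num)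
    set a := ∫ ω', v i ω' ∂P with ha
    have hpt : ∀ ω, ‖v i ω - a‖ ^ 2 = ‖v i ω‖ ^ 2 - 2 * (v i ω * conj a).re + ‖a‖ ^ 2 := by
      intro ω
      rw [← Complex.normSq_eq_norm_sq, Complex.normSq_sub, ← Complex.normSq_eq_norm_sq,
        ← Complex.normSq_eq_norm_sq]
      ring
    simp_rw [hpt]
    have i3 : Integrable (fun ω => v i ω * conj a) P := i1.mul_const _
    have i4 : Integrable (fun ω => 2 * (v i ω * conj a).re) P := i3.re.const_mul 2
    rw [integral_add (f := fun ω => ‖v i ω‖ ^ 2 - 2 * (v i ω * conj a).re)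
      (g := fun _ => ‖a‖ ^ 2) (i2.sub i4) (integrable_const _),
      integral_sub (f := fun ω => ‖v i ω‖ ^ 2) (g := fun ω => 2 * (v i ω * conj a).re) i2 i4,
      integral_const_mul]
    have h3 : ∫ ω, (v i ω * conj a).re ∂P = ‖a‖ ^ 2 := by
      have h4 := integral_re (𝕜 := ℂ) i3
      simp only [RCLike.re_eq_complex_re] at h4
      rw [h4, integral_mul_const, ← ha, ← Complex.normSq_eq_norm_sq,
        Complex.mul_conj, Complex.ofReal_re]
    rw [h3]
    simp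
    nlinarith [sq_nonneg ‖a‖]
  · intro i hi j hj hij
    have i1 : Integrable (v i) P := (h2 i hi).integrable (by norm_num)
    have i2 : Integrable (v j) P := (h2 j hj).integrable (by norm_num)
    have hI := (hind i hi j hj hij).comp (φ := fun z : ℂ => z - ∫ ω', v i ω' ∂P)
      (ψ := fun z : ℂ => conj (z - ∫ ω', v j ω' ∂P)) (by fun_prop)
      (Complex.continuous_conj.measurable.comp (by fun_prop))
    have h5 := hI.integral_fun_mul_eq_mul_integral
      (i1.sub (integrable_const _)).aestronglyMeasurable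
      ((integrable_mul_conj (memLp_const (1 : ℂ)) (hm j hj)).congr
        (Filter.Eventually.of_forall fun ω => by simp)).aestronglyMeasurable
    simp only [Function.comp_def] at h5
    rw [h5, integral_sub i1 (integrable_const _)]
    simp

/-- Chebyshev with a union over finitely many partial sums (checkpoints) -/
theorem checkpoints [IsProbabilityMeasure P] {κ : Type*} (C : Finset κ) (s : κ → Finset ι)
    (N : ι → Finset ι) (d n : ℕ) {v : ι → Ω → ℂ} {K r : ℝ} (hr : 0 < r)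
    (hn : ∀ k ∈ C, (s k).card ≤ n)
    (hd : ∀ k ∈ C, ∀ i ∈ s k, (N i).card ≤ d) (h2 : ∀ k ∈ C, ∀ i ∈ s k, MemLp (v i) 2 P)
    (hK0 : 0 ≤ K) (hK : ∀ k ∈ C, ∀ i ∈ s k, ∫ ω, ‖v i ω‖ ^ 2 ∂P ≤ K)
    (hind : ∀ k ∈ C, ∀ i ∈ s k, ∀ j ∈ s k, j ∉ N i → IndepFun (v i) (v j) P) :
    P {ω | ∃ k ∈ C, r ≤ ‖∑ i ∈ s k, (v i ω - ∫ ω', v i ω' ∂P)‖}
      ≤ ENNReal.ofReal (C.card * (d * n * K) / r ^ 2) := by
  have h1 : ∀ k ∈ C, P {ω | r ≤ ‖∑ i ∈ s k, (v i ω - ∫ ω', v i ω' ∂P)‖}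
      ≤ ENNReal.ofReal (d * n * K / r ^ 2) := by
    intro k hk
    have hv := variance_sum (s k) N d (hd k hk) (h2 k hk) hK0 (hK k hk) (hind k hk)
    have hm : MemLp (fun ω => ∑ i ∈ s k, (v i ω - ∫ ω', v i ω' ∂P)) 2 P :=
      memLp_finsetSum (s k) fun i hi => (h2 k hk i hi).sub (memLp_const _)
    have hi : Integrable (fun ω => ‖∑ i ∈ s k, (v i ω - ∫ ω', v i ω' ∂P)‖ ^ 2) P :=
      hm.integrable_norm_pow (by norm_num)
    have hle := mul_meas_ge_le_integral_of_nonneg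
      (Filter.Eventually.of_forall fun ω => by positivity) hi (r ^ 2)
    have hset : {ω | r ≤ ‖∑ i ∈ s k, (v i ω - ∫ ω', v i ω' ∂P)‖}
        ⊆ {ω | r ^ 2 ≤ ‖∑ i ∈ s k, (v i ω - ∫ ω', v i ω' ∂P)‖ ^ 2} := by
      intro ω hω
      exact pow_le_pow_left₀ hr.le hω 2
    have hbd : r ^ 2 * P.real {ω | r ^ 2 ≤ ‖∑ i ∈ s k, (v i ω - ∫ ω', v i ω' ∂P)‖ ^ 2}
        ≤ d * n * K := by
      refine hle.trans (hv.trans ?_)
      have : ((s k).card : ℝ) ≤ n := by exact_mod_cast hn k hk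
      have hd0 : (0 : ℝ) ≤ d := Nat.cast_nonneg d
      nlinarith [mul_le_mul_of_nonneg_left this hd0, mul_nonneg hd0 hK0]
    calc P {ω | r ≤ ‖∑ i ∈ s k, (v i ω - ∫ ω', v i ω' ∂P)‖}
        ≤ P {ω | r ^ 2 ≤ ‖∑ i ∈ s k, (v i ω - ∫ ω', v i ω' ∂P)‖ ^ 2} := measure_mono hset
      _ = ENNReal.ofReal (P.real {ω | r ^ 2 ≤ ‖∑ i ∈ s k, (v i ω - ∫ ω', v i ω' ∂P)‖ ^ 2}) :=
          (ofReal_measureReal).symm
      _ ≤ ENNReal.ofReal (d * n * K / r ^ 2) := by
          apply ENNReal.ofReal_le_ofReal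
          rw [le_div_iff₀ (by positivity), mul_comm]
          exact hbd
  calc P {ω | ∃ k ∈ C, r ≤ ‖∑ i ∈ s k, (v i ω - ∫ ω', v i ω' ∂P)‖}
      ≤ P (⋃ k ∈ C, {ω | r ≤ ‖∑ i ∈ s k, (v i ω - ∫ ω', v i ω' ∂P)‖}) := by
        apply measure_mono
        intro ω hω
        simpa using hω
    _ ≤ ∑ k ∈ C, P {ω | r ≤ ‖∑ i ∈ s k, (v i ω - ∫ ω', v i ω' ∂P)‖} :=
        measure_biUnion_finset_le C _
    _ ≤ ∑ k ∈ C, ENNReal.ofReal (d * n * K / r ^ 2) := Finset.sum_le_sum h1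
    _ = ENNReal.ofReal (C.card * (d * n * K) / r ^ 2) := by
        rw [Finset.sum_const, nsmul_eq_mul, ← ENNReal.ofReal_natCast,
          ← ENNReal.ofReal_mul (Nat.cast_nonneg _)]
        congr 1
        ring

/-- second moment of the largest partial sum over the checkpoints -/
theorem checkpoints_L2 [IsProbabilityMeasure P] {κ : Type*} (C : Finset κ) (s : κ → Finset ι)
    (N : ι → Finset ι) (d n : ℕ) {v : ι → Ω → ℂ} {K : ℝ}
    (hn : ∀ k ∈ C, (s k).card ≤ n)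
    (hd : ∀ k ∈ C, ∀ i ∈ s k, (N i).card ≤ d) (h2 : ∀ k ∈ C, ∀ i ∈ s k, MemLp (v i) 2 P)
    (hK0 : 0 ≤ K) (hK : ∀ k ∈ C, ∀ i ∈ s k, ∫ ω, ‖v i ω‖ ^ 2 ∂P ≤ K)
    (hind : ∀ k ∈ C, ∀ i ∈ s k, ∀ j ∈ s k, j ∉ N i → IndepFun (v i) (v j) P) :
    ∫ ω, ∑ k ∈ C, ‖∑ i ∈ s k, (v i ω - ∫ ω', v i ω' ∂P)‖ ^ 2 ∂P ≤ C.card * (d * n * K) := by
  have hm : ∀ k ∈ C, MemLp (fun ω => ∑ i ∈ s k, (v i ω - ∫ ω', v i ω' ∂P)) 2 P := fun k hk =>
    memLp_finsetSum (s k) fun i hi => (h2 k hk i hi).sub (memLp_const _)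
  have hi : ∀ k ∈ C, Integrable (fun ω => ‖∑ i ∈ s k, (v i ω - ∫ ω', v i ω' ∂P)‖ ^ 2) P :=
    fun k hk => (hm k hk).integrable_norm_pow (by norm_num)
  rw [integral_finsetSum C hi]
  calc ∑ k ∈ C, ∫ ω, ‖∑ i ∈ s k, (v i ω - ∫ ω', v i ω' ∂P)‖ ^ 2 ∂P
      ≤ ∑ k ∈ C, (d * n * K : ℝ) := by
        apply Finset.sum_le_sum
        intro k hk
        refine (variance_sum (s k) N d (hd k hk) (h2 k hk) hK0 (hK k hk) (hind k hk)).trans ?_
        have : ((s k).card : ℝ) ≤ n := by exact_mod_cast hn k hk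
        have hd0 : (0 : ℝ) ≤ d := Nat.cast_nonneg d
        nlinarith [mul_le_mul_of_nonneg_left this hd0, mul_nonneg hd0 hK0]
    _ = C.card * (d * n * K) := by rw [Finset.sum_const, nsmul_eq_mul]

end general

end Vale.Agent.P148.R2.H172
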