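import Vale.Agent.P148.R2.H953.Tool2

/-!
# P148, row N3, part a: composite colourings, densities, conditioning on independent events

* `comp_fair`, `comp_le`: two (three) independent fair colourings glued along stopping sets are
  fair; with a weight `0 ≤ L ≤ C` of the first two colourings the mean of `F ≥ 0` of the composite
  is at most `C` times the fair mean.
* `signed_fair`: the same with deterministic signs on the explored set.
* `dens`: the weight seen from the composite colouring is determined on the explored set.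
* `cex`: conditional mean; events with disjoint supports.
-/

open Finset
open scoped Classical

namespace Vale.Agent.P148.R2.H172

open Vale.Agent.P148.R2.H953

set_option linter.unusedSectionVars false

section comp

variable {V : Type*} [Fintype V]

/-- The colouring `c₁` on the explored set of `c₁`, `c₂` off it. -/
noncomputable def mx (A : (V → Bool) → Set V) (c₁ c₂ : V → Bool) : V → Bool := glue (A c₁) c₁ c₂

theorem mx_mem {A : (V → Bool) → Set V} {c₁ c₂ : V → Bool} {v : V} (h : v ∈ A c₁) :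
    mx A c₁ c₂ v = c₁ v := glue_mem h

theorem mx_not_mem {A : (V → Bool) → Set V} {c₁ c₂ : V → Bool} {v : V} (h : v ∉ A c₁) :
    mx A c₁ c₂ v = c₂ v := glue_not_mem h

theorem stop_mx {A : (V → Bool) → Set V} (hA : IsStop A) (c₁ c₂ : V → Bool) :
    A (mx A c₁ c₂) = A c₁ := hA _ _ (agree_glue _ _ _)

/-- **Composite colourings are fair** (two colourings). -/
theorem mx_fair {A : (V → Bool) → Set V} (hA : IsStop A) (F : (V → Bool) → ℝ) :
    (ex fun c₁ => ex fun c₂ => F (mx A c₁ c₂)) = ex F := ex_resample hA F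

/-- **Composite colourings are fair** (three colourings): gates with `c₁`, other explored
vertices with `c₂`, the rest with `c₃`. -/
theorem comp_fair {A E : (V → Bool) → Set V} (hA : IsStop A) (hE : IsStop E)
    (F : (V → Bool) → ℝ) :
    (ex fun c₁ => ex fun c₂ => ex fun c₃ => F (mx E (mx A c₁ c₂) c₃)) = ex F := by
  rw [mx_fair hA fun m => ex fun c₃ => F (mx E m c₃)]
  exact mx_fair hE F

/-- **Bounded weights.** -/
theorem comp_le {A E : (V → Bool) → Set V} (hA : IsStop A) (hE : IsStop E)
    {L : (V → Bool) → (V → Bool) → ℝ} {C : ℝ} (hLC : ∀ c₁ c₂, L c₁ c₂ ≤ C)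
    {F : (V → Bool) → ℝ} (hF : ∀ σ, 0 ≤ F σ) :
    (ex fun c₁ => ex fun c₂ => L c₁ c₂ * ex fun c₃ => F (mx E (mx A c₁ c₂) c₃)) ≤ C * ex F := by
  rw [← comp_fair hA hE F, ← ex_smul]
  refine ex_mono fun c₁ => ?_
  rw [← ex_smul]
  refine ex_mono fun c₂ => ?_
  exact mul_le_mul_of_nonneg_right (hLC _ _) (ex_nonneg fun _ => hF _)

/-- Deterministic signs. -/
def sg (s : V → Bool) (σ : V → Bool) : V → Bool := fun v => xor (s v) (σ v)

theorem sg_invol (s : V → Bool) : Function.Involutive (sg s) := by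
  intro σ
  funext v
  unfold sg
  rw [← Bool.xor_assoc, Bool.xor_self, Bool.false_xor]

/-- A stopping set seen through deterministic signs. -/
theorem isStop_sg {E : (V → Bool) → Set V} (hE : IsStop E) (s : V → Bool) :
    IsStop fun σ => E (sg s σ) := by
  intro σ ρ h
  refine hE _ _ fun v hv => ?_
  unfold sg
  rw [h v hv]

/-- The colouring with the signs `s` on the explored set of `m`, `c₃` off it. -/
noncomputable def mxs (s : V → Bool) (E : (V → Bool) → Set V) (m c₃ : V → Bool) : V → Bool :=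
  glue (E m) (sg s m) c₃

/-- **Signed composite colourings are fair.** -/
theorem signed_fair {E : (V → Bool) → Set V} (hE : IsStop E) (s : V → Bool)
    (F : (V → Bool) → ℝ) : (ex fun m => ex fun c₃ => F (mxs s E m c₃)) = ex F := by
  rw [← ex_invol (sg_invol s) fun m => ex fun c₃ => F (mxs s E m c₃)]
  have h : ∀ m c₃, mxs s E (sg s m) c₃ = glue (E (sg s m)) m c₃ := by
    intro m c₃
    unfold mxs
    rw [sg_invol s m]
  simp only [h]
  exact ex_resample (isStop_sg hE s) F

theorem signed_comp_le {A E : (V → Bool) → Set V} (hA : IsStop A) (hE : IsStop E)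
    (s : V → Bool) {L : (V → Bool) → (V → Bool) → ℝ} {C : ℝ} (hLC : ∀ c₁ c₂, L c₁ c₂ ≤ C)
    {F : (V → Bool) → ℝ} (hF : ∀ σ, 0 ≤ F σ) :
    (ex fun c₁ => ex fun c₂ => L c₁ c₂ * ex fun c₃ => F (mxs s E (mx A c₁ c₂) c₃)) ≤
      C * ex F := by
  rw [← signed_fair hE s F, ← mx_fair hA fun m => ex fun c₃ => F (mxs s E m c₃), ← ex_smul]
  refine ex_mono fun c₁ => ?_
  rw [← ex_smul]
  refine ex_mono fun c₂ => ?_
  exact mul_le_mul_of_nonneg_right (hLC _ _) (ex_nonneg fun _ => hF _)

/-! ### the density seen from the composite colouring -/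

/-- The weight `L c₁ c₂` averaged given `mx A c₁ c₂ = m`. -/
noncomputable def wt1 (A : (V → Bool) → Set V) (L : (V → Bool) → (V → Bool) → ℝ)
    (m : V → Bool) : ℝ := ex fun ρ => L (glue (A m) m ρ) (glue (A m) ρ m)

/-- The weight averaged given the composite colouring. -/
noncomputable def dens (A E : (V → Bool) → Set V) (L : (V → Bool) → (V → Bool) → ℝ)
    (m : V → Bool) : ℝ := ex fun ρ => wt1 A L (glue (E m) m ρ)

theorem wt1_spec {A : (V → Bool) → Set V} (hA : IsStop A) (L : (V → Bool) → (V → Bool) → ℝ)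
    (G : (V → Bool) → ℝ) :
    (ex fun c₁ => ex fun c₂ => L c₁ c₂ * G (mx A c₁ c₂)) = ex fun m => wt1 A L m * G m := by
  rw [← ex2_swap hA fun c₁ c₂ => L c₁ c₂ * G (mx A c₁ c₂)]
  refine ex_congr fun m => ?_
  unfold wt1
  rw [← ex_mul_const]
  refine ex_congr fun ρ => ?_
  congr 2
  unfold mx
  rw [hA _ _ (agree_glue (A m) m ρ)]
  funext v
  by_cases hv : v ∈ A m
  · rw [glue_mem hv, glue_mem hv]
  · rw [glue_not_mem hv, glue_not_mem hv]

theorem dens_meas {E : (V → Bool) → Set V} (hE : IsStop E) (A : (V → Bool) → Set V)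
    (L : (V → Bool) → (V → Bool) → ℝ) : Meas E (dens A E L) := by
  intro σ ρ h
  unfold dens
  refine ex_congr fun c => ?_
  rw [hE σ ρ h]
  congr 1
  exact glue_congr h.symm Agree.rfl

/-- **The density.** -/
theorem dens_spec {A E : (V → Bool) → Set V} (hA : IsStop A) (hE : IsStop E)
    (L : (V → Bool) → (V → Bool) → ℝ) (F : (V → Bool) → ℝ) :
    (ex fun c₁ => ex fun c₂ => L c₁ c₂ * ex fun c₃ => F (mx E (mx A c₁ c₂) c₃)) =
      ex fun m => dens A E L m * F m := by
  rw [wt1_spec hA L fun m => ex fun c₃ => F (mx E m c₃)]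
  -- the right side, resampled off `E`
  rw [ex_mul_resample hE (dens_meas hE A L) F]
  have hF : Meas E fun m => ex fun c₃ => F (glue (E m) m c₃) := by
    intro σ ρ h
    dsimp only
    refine ex_congr fun c => ?_
    rw [hE σ ρ h]
    congr 1
    exact glue_congr h.symm Agree.rfl
  have h2 := ex_mul_resample hE hF (wt1 A L)
  calc (ex fun m => wt1 A L m * ex fun c₃ => F (mx E m c₃))
      = ex fun m => (ex fun c₃ => F (glue (E m) m c₃)) * wt1 A L m :=
        ex_congr fun m => mul_comm _ _
    _ = ex fun m => (ex fun c₃ => F (glue (E m) m c₃)) * ex fun ρ => wt1 A L (glue (E m) m ρ) := h2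
    _ = _ := ex_congr fun m => mul_comm _ _

theorem wt1_nonneg {L : (V → Bool) → (V → Bool) → ℝ} (h0 : ∀ c₁ c₂, 0 ≤ L c₁ c₂)
    (A : (V → Bool) → Set V) (m : V → Bool) : 0 ≤ wt1 A L m := ex_nonneg fun _ => h0 _ _

theorem wt1_le {L : (V → Bool) → (V → Bool) → ℝ} {C : ℝ} (hC : ∀ c₁ c₂, L c₁ c₂ ≤ C)
    (A : (V → Bool) → Set V) (m : V → Bool) : wt1 A L m ≤ C := by
  rw [← ex_const (V := V) C]
  exact ex_mono fun _ => hC _ _

theorem dens_nonneg {L : (V → Bool) → (V → Bool) → ℝ} (h0 : ∀ c₁ c₂, 0 ≤ L c₁ c₂)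
    (A E : (V → Bool) → Set V) (m : V → Bool) : 0 ≤ dens A E L m :=
  ex_nonneg fun _ => wt1_nonneg h0 _ _

theorem dens_le {L : (V → Bool) → (V → Bool) → ℝ} {C : ℝ} (hC : ∀ c₁ c₂, L c₁ c₂ ≤ C)
    (A E : (V → Bool) → Set V) (m : V → Bool) : dens A E L m ≤ C := by
  rw [← ex_const (V := V) C]
  exact ex_mono fun _ => wt1_le hC _ _

end comp

/-! ### Conditioning on events with disjoint supports -/

section cond

variable {I : Type*} [Fintype I]

/-- Conditional mean of `f` given the event `A` (`0` if the event is empty). -/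
noncomputable def cex (A : (I → Bool) → Prop) (f : (I → Bool) → ℝ) : ℝ :=
  (ex fun σ => if A σ then f σ else 0) / pr A

theorem cex_congr {A : (I → Bool) → Prop} {f g : (I → Bool) → ℝ} (h : ∀ σ, A σ → f σ = g σ) :
    cex A f = cex A g := by
  unfold cex
  congr 1
  refine ex_congr fun σ => ?_
  by_cases hA : A σ
  · rw [if_pos hA, if_pos hA, h σ hA]
  · rw [if_neg hA, if_neg hA]

theorem cex_mono {A : (I → Bool) → Prop} {f g : (I → Bool) → ℝ} (h : ∀ σ, A σ → f σ ≤ g σ) :
    cex A f ≤ cex A g := by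
  refine div_le_div_of_nonneg_right (ex_mono fun σ => ?_) (pr_nonneg A)
  by_cases hA : A σ
  · rw [if_pos hA, if_pos hA]; exact h σ hA
  · rw [if_neg hA, if_neg hA]

theorem cex_nonneg {A : (I → Bool) → Prop} {f : (I → Bool) → ℝ} (h : ∀ σ, A σ → 0 ≤ f σ) :
    0 ≤ cex A f := by
  refine div_nonneg (ex_nonneg fun σ => ?_) (pr_nonneg A)
  split_ifs with hA
  · exact h σ hA
  · exact le_rfl

theorem cex_add (A : (I → Bool) → Prop) (f g : (I → Bool) → ℝ) :
    cex A (fun σ => f σ + g σ) = cex A f + cex A g := by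
  unfold cex
  rw [← add_div, ← ex_add]
  congr 1
  refine ex_congr fun σ => ?_
  split_ifs <;> simp

theorem cex_smul (A : (I → Bool) → Prop) (c : ℝ) (f : (I → Bool) → ℝ) :
    cex A (fun σ => c * f σ) = c * cex A f := by
  unfold cex
  rw [← mul_div_assoc, ← ex_smul]
  congr 1
  refine ex_congr fun σ => ?_
  split_ifs <;> simp

theorem cex_sum {ι : Type*} (A : (I → Bool) → Prop) (s : Finset ι)
    (f : ι → (I → Bool) → ℝ) : cex A (fun σ => ∑ i ∈ s, f i σ) = ∑ i ∈ s, cex A (f i) := by
  unfold cex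
  rw [← sum_div, ← ex_sum]
  congr 1
  refine ex_congr fun σ => ?_
  split_ifs <;> simp

theorem cex_const {A : (I → Bool) → Prop} (hA : pr A ≠ 0) (c : ℝ) : cex A (fun _ => c) = c := by
  unfold cex
  have h : (ex fun σ => if A σ then c else 0) = c * pr A := by
    unfold pr
    rw [← ex_smul]
    refine ex_congr fun σ => ?_
    split_ifs <;> simp
  rw [h, mul_div_assoc, div_self hA, mul_one]

/-- The conditional mean is at most the mean divided by the probability. -/
theorem cex_le {A : (I → Bool) → Prop} {f : (I → Bool) → ℝ} (hf : ∀ σ, 0 ≤ f σ) {c : ℝ}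
    (hc : 0 < c) (hA : c ≤ pr A) : cex A f ≤ c⁻¹ * ex f := by
  unfold cex
  have h1 : (ex fun σ => if A σ then f σ else 0) ≤ ex f := by
    refine ex_mono fun σ => ?_
    split_ifs
    · exact le_rfl
    · exact hf σ
  have h2 : 0 ≤ ex f := ex_nonneg hf
  calc (ex fun σ => if A σ then f σ else 0) / pr A ≤ ex f / pr A :=
        div_le_div_of_nonneg_right h1 (pr_nonneg A)
    _ ≤ ex f / c := div_le_div_of_nonneg_left h2 hc hA
    _ = c⁻¹ * ex f := by rw [div_eq_inv_mul]

theorem ind_mul (A : (I → Bool) → Prop) (f : (I → Bool) → ℝ) (σ : I → Bool) :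
    (if A σ then f σ else 0) = (if A σ then 1 else 0) * f σ := by
  split_ifs <;> simp

variable {ι : Type*} {S : ι → Set I} {p : ι → (I → Bool) → Prop}

/-- All events of the family. -/
def All (s : Finset ι) (p : ι → (I → Bool) → Prop) (σ : I → Bool) : Prop := ∀ e ∈ s, p e σ

theorem On.all {s : Finset ι} (hp : ∀ e ∈ s, On (S e) (p e)) :
    On (⋃ e ∈ s, S e) (All s p) := by
  intro σ ρ h
  unfold All
  refine propext ⟨fun h1 e he => ?_, fun h1 e he => ?_⟩
  · rw [← hp e he σ ρ (h.mono (Set.subset_biUnion_of_mem (u := S) he))]; exact h1 e he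
  · rw [hp e he σ ρ (h.mono (Set.subset_biUnion_of_mem (u := S) he))]; exact h1 e he

theorem pr_all (s : Finset ι) (hS : (s : Set ι).PairwiseDisjoint S)
    (hp : ∀ e ∈ s, On (S e) (p e)) : pr (All s p) = ∏ e ∈ s, pr (p e) :=
  pr_forall_of_disjoint s hS hp

theorem pow_le_pr_all (s : Finset ι) (hS : (s : Set ι).PairwiseDisjoint S)
    (hp : ∀ e ∈ s, On (S e) (p e)) {c : ℝ} (hc : 0 ≤ c) (h : ∀ e ∈ s, c ≤ pr (p e)) :
    c ^ s.card ≤ pr (All s p) := by
  rw [pr_all s hS hp, ← prod_const]
  exact prod_le_prod (fun _ _ => hc) h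

theorem all_union (s t : Finset ι) (σ : I → Bool) :
    All (s ∪ t) p σ ↔ All s p σ ∧ All t p σ := by
  unfold All
  simp only [mem_union, or_imp, forall_and]

/-- The events which do not touch the support of `f` can be dropped. -/
theorem ex_all_split (s t : Finset ι) (hst : t ⊆ s) (hS : (s : Set ι).PairwiseDisjoint S)
    (hp : ∀ e ∈ s, On (S e) (p e)) {F : Set I} {f : (I → Bool) → ℝ} (hf : On F f)
    (hF : ∀ e ∈ s, e ∉ t → Disjoint (S e) F) :
    (ex fun σ => if All s p σ then f σ else 0) =
      (ex fun σ => if All t p σ then f σ else 0) * pr (All (s \ t) p) := by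
  have h1 : On (F ∪ ⋃ e ∈ t, S e) fun σ => if All t p σ then f σ else 0 := by
    intro σ ρ h
    have h2 := On.all (s := t) (fun e he => hp e (hst he)) σ ρ (h.mono Set.subset_union_right)
    have h3 := hf σ ρ (h.mono Set.subset_union_left)
    simp only [h2, h3]
  have h2 : On (⋃ e ∈ s \ t, S e) fun σ => if All (s \ t) p σ then (1 : ℝ) else 0 :=
    (On.all fun e he => hp e (mem_sdiff.1 he).1).ind
  unfold pr
  rw [← ex_mul_of_disjoint ?_ h1 h2]
  · refine ex_congr fun σ => ?_
    have h3 : All s p σ ↔ All t p σ ∧ All (s \ t) p σ := by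
      rw [← all_union, union_sdiff_of_subset hst]
    by_cases a : All t p σ <;> by_cases b : All (s \ t) p σ <;> simp [h3, a, b]
  · rw [Set.disjoint_union_left]
    constructor
    · rw [Set.disjoint_iUnion₂_right]
      intro e he
      exact (hF e (mem_sdiff.1 he).1 (mem_sdiff.1 he).2).symm
    · rw [Set.disjoint_iUnion₂_left]
      intro e he
      rw [Set.disjoint_iUnion₂_right]
      intro e' he'
      refine hS (hst he) (mem_sdiff.1 he').1 ?_
      rintro rfl
      exact (mem_sdiff.1 he').2 he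

/-- **Local means.** -/
theorem cex_local (s t : Finset ι) (hst : t ⊆ s) (hS : (s : Set ι).PairwiseDisjoint S)
    (hp : ∀ e ∈ s, On (S e) (p e)) (h0 : ∀ e ∈ s, pr (p e) ≠ 0) {F : Set I}
    {f : (I → Bool) → ℝ} (hf : On F f) (hF : ∀ e ∈ s, e ∉ t → Disjoint (S e) F) :
    cex (All s p) f = cex (All t p) f := by
  have hne : pr (All (s \ t) p) ≠ 0 := by
    rw [pr_all _ (hS.subset (by simp)) fun e he => hp e (mem_sdiff.1 he).1]
    exact prod_ne_zero_iff.2 fun e he => h0 e (mem_sdiff.1 he).1
  have h1 := ex_all_split s t hst hS hp hf hF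
  have h2 : pr (All s p) = pr (All t p) * pr (All (s \ t) p) :=
    ex_all_split s t hst hS hp (F := ∅) (f := fun _ => 1) (fun _ _ _ => rfl)
      fun _ _ _ => Set.disjoint_empty _
  unfold cex
  rw [h1, h2, mul_div_mul_right _ _ hne]

/-- **Conditional independence.** No event touches both supports. -/
theorem cex_mul (s : Finset ι) (hS : (s : Set ι).PairwiseDisjoint S)
    (hp : ∀ e ∈ s, On (S e) (p e)) {F G : Set I} {f g : (I → Bool) → ℝ} (hf : On F f)
    (hg : On G g) (hFG : Disjoint F G) (hd : ∀ e ∈ s, Disjoint (S e) F ∨ Disjoint (S e) G) :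
    cex (All s p) (fun σ => f σ * g σ) = cex (All s p) f * cex (All s p) g := by
  set t := s.filter fun e => ¬ Disjoint (S e) F with ht
  have hts : t ⊆ s := filter_subset _ _
  set F' := F ∪ ⋃ e ∈ t, S e with hF'
  set G' := G ∪ ⋃ e ∈ s \ t, S e with hG'
  have hdt : ∀ e ∈ t, Disjoint (S e) G := by
    intro e he
    obtain ⟨h1, h2⟩ := mem_filter.1 he
    exact (hd e h1).resolve_left h2
  have hds : ∀ e ∈ s, e ∉ t → Disjoint (S e) F := by
    intro e he het
    by_contra h
    exact het (mem_filter.2 ⟨he, h⟩)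
  have hds' : ∀ e ∈ s \ t, Disjoint (S e) F := fun e he =>
    hds e (mem_sdiff.1 he).1 (mem_sdiff.1 he).2
  have hFG' : Disjoint F' G' := by
    rw [hF', hG', Set.disjoint_union_left, Set.disjoint_union_right, Set.disjoint_union_right]
    refine ⟨⟨hFG, ?_⟩, ?_, ?_⟩
    · rw [Set.disjoint_iUnion₂_right]
      exact fun e he => (hds' e he).symm
    · rw [Set.disjoint_iUnion₂_left]
      exact hdt
    · rw [Set.disjoint_iUnion₂_left]
      intro e he
      rw [Set.disjoint_iUnion₂_right]
      intro e' he'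
      refine hS (hts he) (mem_sdiff.1 he').1 ?_
      rintro rfl
      exact (mem_sdiff.1 he').2 he
  have onF : On F' fun σ => (if All t p σ then f σ else 0) := by
    intro σ ρ h
    have h2 := On.all (s := t) (fun e he => hp e (hts he)) σ ρ (h.mono Set.subset_union_right)
    have h3 := hf σ ρ (h.mono Set.subset_union_left)
    simp only [h2, h3]
  have onG : On G' fun σ => (if All (s \ t) p σ then g σ else 0) := by
    intro σ ρ h
    have h2 := On.all (s := s \ t) (fun e he => hp e (mem_sdiff.1 he).1) σ ρ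
      (h.mono Set.subset_union_right)
    have h3 := hg σ ρ (h.mono Set.subset_union_left)
    simp only [h2, h3]
  have hsp : ∀ σ, All s p σ ↔ All t p σ ∧ All (s \ t) p σ := fun σ => by
    rw [← all_union, union_sdiff_of_subset hts]
  -- the four means
  have e1 : (ex fun σ => if All s p σ then f σ * g σ else 0) =
      (ex fun σ => if All t p σ then f σ else 0) *
        (ex fun σ => if All (s \ t) p σ then g σ else 0) := by
    rw [← ex_mul_of_disjoint hFG' onF onG]
    refine ex_congr fun σ => ?_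
    by_cases a : All t p σ <;> by_cases b : All (s \ t) p σ <;> simp [hsp σ, a, b]
  have e2 : (ex fun σ => if All s p σ then f σ else 0) =
      (ex fun σ => if All t p σ then f σ else 0) * pr (All (s \ t) p) :=
    ex_all_split s t hts hS hp hf hds
  have e3 : (ex fun σ => if All s p σ then g σ else 0) =
      (ex fun σ => if All (s \ t) p σ then g σ else 0) * pr (All t p) := by
    have := ex_all_split s (s \ t) sdiff_subset hS hp hg (by
      intro e he het
      have h1 : e ∈ t := by
        by_contra h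
        exact het (mem_sdiff.2 ⟨he, h⟩)
      exact hdt e h1)
    rwa [Finset.sdiff_sdiff_eq_self hts] at this
  have e4 : pr (All s p) = pr (All t p) * pr (All (s \ t) p) :=
    ex_all_split s t hts hS hp (F := ∅) (f := fun _ => 1) (fun _ _ _ => rfl)
      fun _ _ _ => Set.disjoint_empty _
  unfold cex
  rw [e1, e2, e3, e4]
  by_cases h1 : pr (All t p) = 0
  · rw [h1]; simp
  by_cases h2 : pr (All (s \ t) p) = 0
  · rw [h2]; simp
  field_simp

end cond

end Vale.Agent.P148.R2.H172
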