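import Vale.Agent.P148.R2.H172.N3c
import Vale.Agent.P148.R2.H291.Site

/-!
# P148, row N3, part d: the law of the comb on the sites of a world

The events of the comb for the relation `nbr (site T R)` are those for `nbr (pts T)` on the good
event, and only depend on the sites in the disc of radius `6`; hence the lower bounds of
`comb_law_whp` hold for all finite sets of sites which agree with `pts T` on that disc.
-/

open Set Metric Relation Filter
open scoped Classical

namespace Vale.Agent.P148.R2.H172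

open Vale.Agent.P148.R2.H953
open Vale.Agent.P148.R2.F (whp)
open Vale.Agent.P148.R2.H592 (nbr)
open Vale.Agent.P148.R2.H678
open Vale.Agent.P148.R2.H938 (pc HBx CBx HubEv CorEv)
open Vale.Agent.P148.R2.N (ms nc gateC ms_pos)
open Vale.Agent.P148.R2.H995 (TCr)
open Vale.Agent.P148.R2.H291 (site bR SiteOK)
open Vale.Agent.P148.R2.H566 (Ev)
open _root_.P148

universe u v

/-! ### two relations which agree in a region -/

section Rel

variable {M k : ℕ} {Y Y' Bl Wh : Set ℂ} {D : Set ℂ}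

/-- The two relations agree at the points of `D`. -/
def RelOn (D Y Y' : Set ℂ) : Prop :=
  Y ∩ D = Y' ∩ D ∧ ∀ x ∈ D, ∀ y, (nbr Y x y ↔ nbr Y' x y)

theorem RelOn.symm (h : RelOn D Y Y') : RelOn D Y' Y :=
  ⟨h.1.symm, fun x hx y => (h.2 x hx y).symm⟩

theorem RelOn.mono {D' : Set ℂ} (h : RelOn D Y Y') (hD : D' ⊆ D) : RelOn D' Y Y' := by
  refine ⟨?_, fun x hx y => h.2 x (hD hx) y⟩
  rw [← inter_eq_self_of_subset_right hD, ← inter_assoc, ← inter_assoc, h.1]

theorem ball_sub_hbox (hM : 0 < M) (z : ℂ) : ball z (sd M) ⊆ hbox M z := by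
  intro w hw
  have h1 := nsup_lt_of_ball hw
  have h2 := H938.sd_le_hb M
  have h3 := H938.hb_pos hM
  show H995.nsup (w - z) ≤ hb M
  linarith

theorem seeds_eq (hM : 0 < M) (h : RelOn D Y Y') {z : ℂ} (hz : hbox M z ⊆ D) :
    Y' ∩ ball z (sd M) = Y ∩ ball z (sd M) := by
  have h1 : ball z (sd M) ⊆ D := (ball_sub_hbox hM z).trans hz
  rw [← inter_eq_self_of_subset_right h1, ← inter_assoc, ← inter_assoc, h.1]

/-- A hub which stays in its box is the same for the two relations. -/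
theorem hub_rel (hM : 0 < M) (h : RelOn D Y Y') {z : ℂ} (hz : hbox M z ⊆ D) {C : Set ℂ}
    (hs : hub (nbr Y) (Y ∩ ball z (sd M)) C ⊆ hbox M z) :
    hub (nbr Y') (Y' ∩ ball z (sd M)) C = hub (nbr Y) (Y ∩ ball z (sd M)) C := by
  rw [seeds_eq hM h hz]
  exact hub_congr_rel fun u hu v => (h.2 u (hz (hs (core_sub_hub hu))) v).symm

theorem inHub_rel (hM : 0 < M) (h : RelOn D Y Y') (hD : HBx M k ⊆ D)
    (hg : InGood M Y Wh k) : inHub M Y' Wh k = inHub M Y Wh k :=
  hub_rel hM h (subset_union_left.trans hD) hg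

theorem outHub_rel (hM : 0 < M) (h : RelOn D Y Y') (hD : HBx M k ⊆ D)
    (hg : OutGood M Y Bl k) : outHub M Y' Bl k = outHub M Y Bl k :=
  hub_rel hM h (subset_union_right.trans hD) hg

theorem hubEv_rel_aux (hM : 0 < M) (h : RelOn D Y Y') (hD : HBx M k ⊆ D)
    (hg : HubEv M Y Bl Wh k) : HubEv M Y' Bl Wh k := by
  refine ⟨?_, ?_⟩
  · unfold InGood
    rw [inHub_rel hM h hD hg.1]
    exact hg.1
  · unfold OutGood
    rw [outHub_rel hM h hD hg.2]
    exact hg.2

/-- The hub event is the same for the two relations. -/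
theorem hubEv_rel (hM : 0 < M) (h : RelOn D Y Y') (hD : HBx M k ⊆ D) :
    HubEv M Y Bl Wh k ↔ HubEv M Y' Bl Wh k :=
  ⟨hubEv_rel_aux hM h hD, hubEv_rel_aux hM h.symm hD⟩

theorem ccr_rel_aux (h : RelOn D Y Y') {W : Set ℂ} {z z' : ℂ} (hD : CBox M z z' ⊆ D)
    (hg : CCr M Y W z z') : CCr M Y' W z z' := by
  obtain ⟨n, v, h1, h2, h3, h4⟩ := hg
  exact ⟨n, v, fun i hi => (h.2 _ (hD (h2 i hi.le).2) _).1 (h1 i hi), h2, h3, h4⟩

theorem ccr_rel (h : RelOn D Y Y') {W : Set ℂ} {z z' : ℂ} (hD : CBox M z z' ⊆ D) :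
    CCr M Y W z z' ↔ CCr M Y' W z z' :=
  ⟨ccr_rel_aux h hD, ccr_rel_aux h.symm hD⟩

/-- The corridor event is the same for the two relations. -/
theorem corEv_rel (h : RelOn D Y Y') (hD : CBx M k ⊆ D) :
    CorEv M Y Bl Wh k ↔ CorEv M Y' Bl Wh k :=
  and_congr (and_congr
    (ccr_rel h ((subset_union_left.trans subset_union_left).trans hD))
    (ccr_rel h ((subset_union_right.trans subset_union_left).trans hD)))
    (and_congr (ccr_rel h ((subset_union_left.trans subset_union_right).trans hD))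
      (ccr_rel h ((subset_union_right.trans subset_union_right).trans hD)))

theorem hbx_sub_ball (hM : 0 < M) (k : ℕ) : HBx M k ⊆ ball 0 6 :=
  (union_subset (H995.hbox_pin_sub hM k) (H995.hbox_pout_sub hM k)).trans
    ((H995.gbox_sub_ball hM k).trans (ball_subset_ball (by norm_num)))

theorem cbx_sub_ball (hM : 0 < M) (k : ℕ) : CBx M k ⊆ ball 0 6 := by
  have h5 : ball (0 : ℂ) 5 ⊆ ball 0 6 := ball_subset_ball (by norm_num)
  have h4 : ball (0 : ℂ) 4 ⊆ ball 0 6 := ball_subset_ball (by norm_num)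
  refine union_subset (union_subset ?_ (H995.rad_sub_ball hM k)) (union_subset ?_ ?_)
  · exact (H995.tooth_sub hM k).trans ((H995.gbox_sub_ball hM k).trans h4)
  · exact (H995.rail_in_sub hM k).trans ((H995.cell_sub_ball hM k).trans h5)
  · exact (H995.rail_out_sub hM k).trans ((H995.cell_sub_ball hM k).trans h5)

end Rel

/-! ### marginals -/

section Marg

variable {V : Type v} [Fintype V] {e : V → ℂ} {M : ℕ}

omit [Fintype V] in
/-- The colours of the sites in `D`. -/
theorem pc_restrict (D : Set ℂ) {A : Set ℂ} (hA : A ⊆ D) (c : Bool) (σ : V → Bool) :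
    pc (fun v : {v : V // e v ∈ D} => e v.1) c (fun v => σ v.1) ∩ A = pc e c σ ∩ A := by
  ext z
  constructor
  · rintro ⟨⟨v, hv, rfl⟩, hA'⟩
    exact ⟨⟨v.1, hv, rfl⟩, hA'⟩
  · rintro ⟨⟨v, hv, rfl⟩, hA'⟩
    exact ⟨⟨⟨v, hA hA'⟩, hv, rfl⟩, hA'⟩

theorem pr_restrict (D : Set ℂ) (p : ({v : V // e v ∈ D} → Bool) → Prop) :
    (pr fun σ : V → Bool => p fun v => σ v.1) = pr p :=
  pr_marg (e := fun v : {v : V // e v ∈ D} => v.1) Subtype.val_injective p

end Marg

/-! ### with high probability -/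

theorem relOn_site {T : Set Pt} {R s : ℝ} (h : SiteOK T R s) (hR : 7 ≤ R) :
    RelOn (ball (0 : ℂ) 6) (pts T) (site T R) :=
  ⟨(h.agree (ball_subset_ball (by linarith))).symm, fun x hx y =>
    (h.nbr_iff ((ball_subset_closedBall.trans (closedBall_subset_closedBall (by linarith))) hx)).symm⟩

/-- **Lower bounds of the comb on the sites of a world**: `e : V → ℂ` are finitely many sites which
agree with `pts T` on the disc of radius `6`. -/
theorem comb_law_site : ∃ c > 0, ∀ (M : ℕ) (hM : 0 < M) (R : ℝ), 7 ≤ R →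
    Ev.{u} fun T => ∀ (V : Type v) [Fintype V] (e : V → ℂ), Function.Injective e →
      range e ∩ ball 0 6 = pts T ∩ ball 0 6 →
      (∀ k < (combLaw hM (site T R) e).n, c ≤ pr ((combLaw hM (site T R) e).He k)) ∧
      (∀ k < (combLaw hM (site T R) e).n, c ≤ pr ((combLaw hM (site T R) e).Ce k)) := by
  obtain ⟨c, hc, h⟩ := comb_law_whp.{u, v}
  refine ⟨c, hc, fun M hM R hR => H291.ev_of_whp ?_⟩
  have hs : Ev.{u} fun T => SiteOK T R (1 / 10) :=
    H291.ev_siteOK (by linarith) (by norm_num) (by norm_num)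
  filter_upwards [h M hM, H291.whp_of_ev hs] with m hm hsite V _ e he hag
  set D : Set ℂ := ball 0 6 with hD
  have hrel := relOn_site hsite hR
  have hr' : range (fun v : {v : V // e v ∈ D} => e v.1) = pts m.2 ∩ D := by
    rw [← hag]
    ext z
    constructor
    · rintro ⟨v, rfl⟩
      exact ⟨⟨v.1, rfl⟩, v.2⟩
    · rintro ⟨⟨v, rfl⟩, hz⟩
      exact ⟨⟨v, hz⟩, rfl⟩
  obtain ⟨h1, h2⟩ := hm {v : V // e v ∈ D} (fun v => e v.1) (he.comp Subtype.val_injective)
    (hr'.trans_subset inter_subset_left) (by rw [hr'])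
  refine ⟨fun k hk => ?_, fun k hk => ?_⟩
  · refine (h1 k hk).trans (le_of_eq ?_)
    rw [← pr_restrict D]
    refine pr_congr fun σ => ?_
    have hA := hbx_sub_ball hM k
    refine Iff.trans ?_ (hubEv_rel hM hrel hA)
    exact H938.hubEv_congr (pc_restrict D hA _ _).symm (pc_restrict D hA _ _).symm
  · refine (h2 k hk).trans (le_of_eq ?_)
    rw [← pr_restrict D]
    refine pr_congr fun σ => ?_
    have hA := cbx_sub_ball hM k
    refine Iff.trans ?_ (corEv_rel hrel hA)
    exact H938.corEv_congr (pc_restrict D hA _ _).symm (pc_restrict D hA _ _).symm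

end Vale.Agent.P148.R2.H172
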