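import Vale.Agent.P148.R2.H172.Sc3
import Vale.Agent.P148.R2.H678.Wrd
import Vale.Agent.P148.R2.H126.Rf
import Vale.Agent.P148.R2.H126.Wn
import Vale.Agent.P148.R2.H291.Site
import Vale.Agent.P148.R2.H400.Flip11
import Vale.Agent.P148.R2.H598.Lln5
import Vale.Agent.P148.R2.H504.Quen
import Vale.Agent.P148.R2.H488.Cw

/-!
# P148, the scene of the comb, part 4: THE scene

* `FScene M` : a scene with a base vertex, a colouring and (if there is one) a frame with the
  canonical feet of helper126 in each world
* `FScene.toA N` : the arcs; `hv`, `cv`, `mx`, `wn` : closing chains, values of the cells, arc sums,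
  windows
* `fscOf hM h` : the scene of the comb on the sites `X`; `fsc M T` : on the sites of `T`
* `sc N M T = (fsc M T).toA N`
* `exists_goodT`, `fsc_eq`, `row_ok`
-/

open Set Metric Relation Filter Function
open scoped Classical ENNReal

namespace Vale.Agent.P148.R2.H172

open _root_.P148 _root_.P148.H729
open Vale.Agent.P148.R2.H592 (nbr HullTri idmap fib_id)
open Vale.Agent.P148.R2.H203 (wt)
open Vale.Agent.P148.R2.H184 (Dt)
open Vale.Agent.P148.R2.N (ms nc gateC cellC csq ms_pos)
open Vale.Agent.P148.R2.H566 (W0 Scene AScene Ev Asq)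
open Vale.Agent.P148.R2.H609 (TP piX cyP Bq)
open Vale.Agent.P148.R2.H678 (WC fr E0X E0 HubV wd)
open Vale.Agent.P148.R2.H953 (Agree glue agree_glue pr)
open Vale.Agent.P148.R2.H291 (SiteOK site bR)
open Vale.Agent.P148.R2.H838 (s12)
open Vale.Agent.P148.R2.H488 (cw hc)

universe u

/-! ### scenes with frames -/

/-- The frame has the canonical feet. -/
def Frame.Can {M : ℕ} {w : W0} {x₀ : w.X} {col : w.X → Bool} (F : Frame M w x₀ col) : Prop :=
  ∀ k, ((TP w x₀).st col)^[F.t k] F.o = H126.rf w.hull x₀ M col k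

/-- A scene with a base vertex, a colouring and perhaps a frame (with the canonical feet) in each
of its worlds. -/
structure FScene (M : ℕ) extends Scene where
  x₀ : ∀ i, (w i).X
  col : ∀ i, (w i).X → Bool
  fr : ∀ i, Option (Frame M (w i) (x₀ i) (col i))
  can : ∀ i F, fr i = some F → F.Can

section One

variable {M : ℕ} {w : W0} {x₀ : w.X} {col : w.X → Bool}

theorem Frame.Can.o_eq {F : Frame M w x₀ col} (h : F.Can) : F.o = H126.rf w.hull x₀ M col 0 := by
  have := h 0
  rwa [F.lt.zero, Function.iterate_zero, id] at this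

/-- The arc `j` of a frame. -/
def Frame.arc (F : Frame M w x₀ col) (N j : ℕ) : Set w.D :=
  Bq w (F.P (ga N M j) (ga N M (j + 1)))

/-- The closing chains, from the main class counted from the foot of the gate `j`. -/
noncomputable def Frame.bH (F : Frame M w x₀ col) (j : ℕ) : w.D → w.D → List w.D :=
  H400.clH (TP w x₀) (F.bc j) (F.bn j)

/-- The arc `j`. -/
def arcO (N j : ℕ) : Option (Frame M w x₀ col) → Set w.D
  | none => ∅
  | some F => F.arc N j

/-- The closing chains of the arc `j`. -/
noncomputable def HO (N j : ℕ) : Option (Frame M w x₀ col) → w.D → w.D → List w.D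
  | none => fun _ _ => []
  | some F => F.bH (ga N M j)

/-- The windows of the excursions captured by the arc `j`. -/
noncomputable def WO (N j : ℕ) (Θ : Dt → ℂ) :
    Option (Frame M w x₀ col) → (w.V → Bool) → w.D → ℝ≥0∞
  | none => fun _ _ => 0
  | some F => fun σ d => ENNReal.ofReal (H126.wnd (TP w x₀) w.T (nc M) (F.tb (ga N M j))
      (F.bt (ga N M j)) (F.bc (ga N M j)) (F.bn (ga N M j))
      (fun k => wt w.hull (idmap w.X x₀) (fib_id w.X x₀) (cw (hc M (ga N M j + k)) Θ)) σ d)

end One

namespace FScene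

variable {M : ℕ} (S : FScene M) (N : ℕ) (Θ : Dt → ℂ)

/-- The scene with its `4 (N + 1)` arcs. -/
def toA : AScene (Fin (nA N)) where
  toScene := S.toScene
  Arc i j := arcO N j (S.fr i)

/-- The value of the closing chain of an excursion captured by the arc `j`. -/
noncomputable def hv (i : S.ι) (j : Fin (nA N)) (σ : (S.w i).V → Bool) (d : (S.w i).D) : ℂ :=
  H400.hvl (S.w i) (S.x₀ i) (HO N j (S.fr i)) Θ σ d

/-- The values of the cells. -/
noncomputable def cv (i : S.ι) (k : ℕ) : ℂ :=
  H504.cF M (Subtype.val : (S.w i).X → ℂ) (fun k => cw (hc M k) Θ) k (S.col i)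

/-- The largest square of an arc sum. -/
noncomputable def mx (i : S.ι) : ℝ≥0∞ := H598.mxs M (S.cv Θ i)

/-- The windows. -/
noncomputable def wn (i : S.ι) (j : Fin (nA N)) (σ : (S.w i).V → Bool) (d : (S.w i).D) : ℝ≥0∞ :=
  WO N j Θ (S.fr i) σ d

end FScene

/-- The values of the cells, in the notation of helper565. -/
theorem FScene.cv_eq {M : ℕ} (S : FScene M) (Θ : Dt → ℂ) (i : S.ι) (k : ℕ) :
    S.cv Θ i k = H565.cellV M (S.w i).X (blk (S.col i)) (cw (hc M k) Θ) k := by
  unfold FScene.cv H504.cF
  rw [Subtype.range_coe]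
  congr 1
  ext z
  constructor
  · rintro ⟨v, hv, rfl⟩
    exact ⟨v.2, hv⟩
  · rintro ⟨h, hz⟩
    exact ⟨⟨z, h⟩, hz, rfl⟩

/-! ### the scene of the comb -/

section Comb

variable {X : Set ℂ} {b : ZMod 3 → ℂ} {M : ℕ}

/-- The sites are finitely many. -/
noncomputable abbrev fX (h : HullTri X b) : Fintype X := h.fin.fintype

/-- Pairs of colourings. -/
noncomputable abbrev prs (V : Type) (_ : Fintype V) : Fintype ((V → Bool) × (V → Bool)) :=
  inferInstance

/-- The law of the comb on the sites `X`. -/
noncomputable abbrev gX (hM : 0 < M) (X : Set ℂ) [Fintype X] : GateLaw X :=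
  combLaw hM X (Subtype.val : X → ℂ)

/-- The composite colouring of a pair of colourings. -/
noncomputable def mc (M : ℕ) (X : Set ℂ) (i : (X → Bool) × (X → Bool)) : X → Bool :=
  s12 (HubV M X) i.1 i.2

theorem mc_eq (hM : 0 < M) [Fintype X] (i : (X → Bool) × (X → Bool)) :
    mc M X i = (gX hM X).w i.1 i.2 := rfl

/-- The base vertex. -/
def xb (h : HullTri X b) : X := ⟨b 0, h.mem 0⟩

/-- The chosen frame. -/
noncomputable def frm (h : HullTri X b) (M : ℕ) (σ : X → Bool) :
    Option (Frame M (wd h M σ) (xb h) σ) :=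
  if hf : ∃ F : Frame M (wd h M σ) (xb h) σ, F.Can then some hf.choose else none

theorem frm_can {h : HullTri X b} {σ : X → Bool} {F : Frame M (wd h M σ) (xb h) σ}
    (hF : frm h M σ = some F) : F.Can := by
  unfold frm at hF
  split_ifs at hF with hf
  rw [Option.some.injEq] at hF
  rw [← hF]
  exact hf.choose_spec

theorem exists_frm {h : HullTri X b} {σ : X → Bool}
    (hf : ∃ F : Frame M (wd h M σ) (xb h) σ, F.Can) : ∃ F, frm h M σ = some F := by
  unfold frm
  rw [dif_pos hf]
  exact ⟨_, rfl⟩

/-- **The scene of the comb on the sites `X`.** -/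
noncomputable def fscOf (hM : 0 < M) (h : HullTri X b) : FScene M where
  ι := (X → Bool) × (X → Bool)
  fin := prs X (fX h)
  p := letI := fX h; pw (gX hM X)
  w i := wd h M (mc M X i)
  x₀ _ := xb h
  col i := mc M X i
  fr i := frm h M (mc M X i)
  can _ _ hF := frm_can hF

end Comb

/-- The empty scene. -/
def fsc0 (M : ℕ) : FScene M where
  ι := Empty
  fin := inferInstance
  p := fun i => i.elim
  w := fun i => i.elim
  x₀ := fun i => i.elim
  col := fun i => i.elim
  fr := fun i => i.elim
  can := fun i => i.elim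

/-- **The scene of the comb on the sites of `T`.** -/
noncomputable def fsc (M : ℕ) (T : Set Pt) : FScene M :=
  if hc : 0 < M ∧ SiteOK T 9 (ms M / 1000) then fscOf hc.1 hc.2.hull else fsc0 M

/-- **The scenes of the middle assembly.** -/
noncomputable def sc (N M : ℕ) (T : Set Pt) : AScene (Fin (nA N)) := (fsc M T).toA N

theorem fsc_eq {M : ℕ} {T : Set Pt} (hM : 0 < M) (h : SiteOK T 9 (ms M / 1000)) :
    fsc M T = fscOf hM h.hull := by
  unfold fsc
  rw [dif_pos ⟨hM, h⟩]

end Vale.Agent.P148.R2.H172
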