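import Vale.Agent.P148.R2.H172.Sc4

/-!
# P148, the scene of the comb, part 5: the good event, row ok
-/

open Set Metric Relation Filter Function
open scoped Classical ENNReal

namespace Vale.Agent.P148.R2.H172

open _root_.P148 _root_.P148.H729
open Vale.Agent.P148.R2.H592 (nbr HullTri idmap fib_id)
open Vale.Agent.P148.R2.H184 (Dt)
open Vale.Agent.P148.R2.N (ms nc gateC cellC csq ms_pos)
open Vale.Agent.P148.R2.H566 (W0 Scene AScene Ev Asq)
open Vale.Agent.P148.R2.H953 (Agree glue agree_glue pr)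
open Vale.Agent.P148.R2.H291 (SiteOK site bR)

universe u

/-- **The good event of the scene of the comb.** -/
structure GoodT (c : ℝ) (M : ℕ) (T : Set Pt) : Prop where
  site : SiteOK T 9 (ms M / 1000)
  he : ∀ (hM : 0 < M) [Fintype (H291.site T 9)],
    (∀ k < nc M, c ≤ pr ((gX hM (H291.site T 9)).He k)) ∧
    (∀ k < nc M, c ≤ pr ((gX hM (H291.site T 9)).Ce k))

theorem exists_goodT : ∃ c > 0, ∀ M : ℕ, 0 < M → Ev.{u} (GoodT c M) := by
  obtain ⟨c, hc, h⟩ := comb_law_site.{u, 0}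
  refine ⟨c, hc, fun M hM => ?_⟩
  have h0 := ms_pos hM
  have h1 : ms M ≤ 1 := N.ms_le_one
  refine ((H291.ev_siteOK.{u} (R := 9) (s := ms M / 1000) (by norm_num) (by linarith)
    (by linarith)).and (h M hM 9 (by norm_num))).mono ?_
  rintro T ⟨h2, h3⟩
  refine ⟨h2, fun hM' _ => ?_⟩
  refine h3 (H291.site T 9) Subtype.val Subtype.val_injective ?_
  rw [Subtype.range_coe]
  exact h2.agree (ball_subset_ball (by norm_num))

namespace GoodT

variable {c : ℝ} {M : ℕ} {T : Set Pt} (h : GoodT c M T)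
include h

theorem sum_p (hc : 0 < c) (hM : 0 < M) : ∑ i, (fscOf hM h.site.hull).p i = 1 := by
  let := fX h.site.hull
  exact sum_pw (gX hM (H291.site T 9)) hc (h.he hM).1 (h.he hM).2

end GoodT

/-- Worlds of positive weight are good. -/
theorem fscOf_A0 {X : Set ℂ} [inst : Fintype X] {b : ZMod 3 → ℂ} {M : ℕ} (hM : 0 < M)
    (h : HullTri X b) {i : (X → Bool) × (X → Bool)} (hi : (fscOf hM h).p i ≠ 0) :
    (gX hM X).A0 i.1 i.2 := by
  obtain rfl : inst = fX h := Subsingleton.elim _ _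
  exact @pw_ne _ (fX h) _ _ hi

/-- The weights, for any instance. -/
theorem fscOf_p {X : Set ℂ} [inst : Fintype X] {b : ZMod 3 → ℂ} {M : ℕ} (hM : 0 < M)
    (h : HullTri X b) (i : (X → Bool) × (X → Bool)) :
    (fscOf hM h).p i = pw (gX hM X) i := by
  obtain rfl : inst = fX h := Subsingleton.elim _ _
  rfl

theorem Asq_sub : Asq ⊆ ball (0 : ℂ) (3 / 4) := by
  intro z hz
  obtain ⟨⟨h1, h2⟩, h3, h4⟩ := hz
  simp only [H566.x0] at h1 h2 h3 h4
  rw [mem_ball_zero_iff]
  have h5 : ‖z‖ ^ 2 ≤ 1 / 2 := by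
    rw [← Complex.normSq_eq_norm_sq, Complex.normSq_apply]
    nlinarith
  nlinarith [norm_nonneg z]

/-- **Row (ok), one set of points.** -/
theorem GoodT.ok {c : ℝ} {M : ℕ} {T : Set Pt} (h : GoodT c M T) (hc : 0 < c) (hM : 0 < M) :
    (fscOf hM h.site.hull).toScene.OK T where
  sum_p := h.sum_p hc hM
  agree _ _ := h.site.agree (Asq_sub.trans (ball_subset_ball (by norm_num)))
  free _ _ x hx hxA := H678.wrd_center (fun h1 => h.site.not_ball 0
    (ball_subset_ball (by norm_num) h1)) hx (Asq_sub hxA)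

/-- **Row (ok).** -/
theorem row_ok (N : ℕ) : ∀ᶠ M in atTop, Ev.{u} fun T => (sc N M T).toScene.OK T := by
  obtain ⟨c, hc, h⟩ := exists_goodT.{u}
  filter_upwards [eventually_gt_atTop 0] with M hM
  refine (h M hM).mono fun T hT => ?_
  show (fsc M T).toScene.OK T
  rw [fsc_eq hM hT.site]
  exact hT.ok hc hM

end Vale.Agent.P148.R2.H172
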