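import Mathlib

/-!
Tilted product measures (accept-reject normalisation), abstract probability layer of the
collar law of large numbers. Independent blocks `x i` (gates) and `y j` (sections); the density
`∏ γ i (x i) * ∏ ε j x (y j)` is normalised so that every `ε j x` integrates to one for
EVERY value of the gates. Then functions of disjoint sets of blocks stay exactly independent.
-/

namespace Vale.Agent.P148.R2.H172

open MeasureTheory ProbabilityTheory Set Function
open scoped ENNReal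

theorem ap {ι : Type*} {X : ι → Type*} {β : Type*} {f : (∀ i, X i) → β} {s : Set ι}
    (h : DependsOn f s) (x y : ∀ i, X i) (hxy : ∀ i ∈ s, x i = y i) : f x = f y := h hxy

section pi

variable {ι : Type*} [Fintype ι] {X : ι → Type*} [∀ i, MeasurableSpace (X i)]
  (μ : ∀ i, Measure (X i)) [∀ i, IsProbabilityMeasure (μ i)]

/-- functions of disjoint sets of coordinates are independent under a product measure -/
theorem lintegral_mul_of_dependsOn [DecidableEq ι] {A B : Finset ι} (hAB : Disjoint A B)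
    {F G : (∀ i, X i) → ℝ≥0∞} (hF : Measurable F) (hG : Measurable G)
    (dF : DependsOn F (A : Set ι)) (dG : DependsOn G (B : Set ι)) :
    ∫⁻ x, F x * G x ∂Measure.pi μ
      = (∫⁻ x, F x ∂Measure.pi μ) * ∫⁻ x, G x ∂Measure.pi μ := by
  classical
  have : ∀ i, Nonempty (X i) := fun i => (μ i).nonempty_of_neZero
  obtain ⟨x0⟩ : Nonempty (∀ i, X i) := inferInstance
  have hind : iIndepFun (fun i (x : ∀ i, X i) => x i) (Measure.pi μ) :=
    iIndepFun_pi (X := fun i (x : X i) => x) (fun i => aemeasurable_id)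
  have h2 := hind.indepFun_finset A B hAB (fun i => measurable_pi_apply i)
  have eF : ∀ x, F x = F (updateFinset x0 A (fun i : A => x i)) := fun x => by
    apply dF
    intro i hi
    simp [updateFinset, Finset.mem_coe.mp hi]
  have eG : ∀ x, G x = G (updateFinset x0 B (fun i : B => x i)) := fun x => by
    apply dG
    intro i hi
    simp [updateFinset, Finset.mem_coe.mp hi]
  have hF' : Measurable fun z : (∀ i : A, X i) => F (updateFinset x0 A z) :=
    hF.comp measurable_updateFinset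
  have hG' : Measurable fun z : (∀ i : B, X i) => G (updateFinset x0 B z) :=
    hG.comp measurable_updateFinset
  have h3 := h2.comp hF' hG'
  have h4 := lintegral_mul_eq_lintegral_mul_lintegral_of_indepFun
    (hF'.comp (measurable_pi_lambda _ fun i => measurable_pi_apply _))
    (hG'.comp (measurable_pi_lambda _ fun i => measurable_pi_apply _)) h3
  simp only [Pi.mul_apply, Function.comp_def] at h4
  simp_rw [← eF, ← eG] at h4
  exact h4

/-- product of one-coordinate functions with integral one over a set of coordinates -/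
theorem lintegral_prod_one [DecidableEq ι] (C : Finset ι) (f : ∀ i, X i → ℝ≥0∞)
    (hf : ∀ i, Measurable (f i)) (h1 : ∀ i ∈ C, ∫⁻ x, f i x ∂μ i = 1) :
    ∫⁻ x, ∏ i ∈ C, f i (x i) ∂Measure.pi μ = 1 := by
  classical
  induction C using Finset.induction_on with
  | empty => simp
  | @insert a C ha ih =>
    have : ∀ x : ∀ i, X i, ∏ i ∈ insert a C, f i (x i) = f a (x a) * ∏ i ∈ C, f i (x i) :=
      fun x => Finset.prod_insert ha
    simp_rw [this]
    rw [lintegral_mul_of_dependsOn μ (A := {a}) (B := C) (F := fun x => f a (x a))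
      (G := fun x => ∏ i ∈ C, f i (x i)) (by simpa using ha)
      ((hf a).comp (measurable_pi_apply a))
      (Finset.measurable_prod _ fun i _ => (hf i).comp (measurable_pi_apply i))
      (fun x y h => by
        have := h a (by simp)
        simp [this])
      (fun x y h => Finset.prod_congr rfl fun i hi => by rw [h i (by simpa using hi)])]
    rw [ih fun i hi => h1 i (Finset.mem_insert_of_mem hi), mul_one]
    have h5 := (measurePreserving_eval μ a).lintegral_comp (hf a)
    simpa [Function.eval] using h5.trans (h1 a (Finset.mem_insert_self a C))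

end pi

section tilt

variable {ι κ : Type*} [Fintype ι] [Fintype κ] [DecidableEq ι] [DecidableEq κ]
  {X : ι → Type*} {Y : κ → Type*} [∀ i, MeasurableSpace (X i)] [∀ j, MeasurableSpace (Y j)]
  (μ : ∀ i, Measure (X i)) [∀ i, IsProbabilityMeasure (μ i)]
  (ν : ∀ j, Measure (Y j)) [∀ j, IsProbabilityMeasure (ν j)]

/-- data of the tilt: gate weights `γ` and section weights `ε`, the latter depending on the
gates in `nb j` and normalised for every value of the gates -/
structure Tilt where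
  γ : ∀ i, X i → ℝ≥0∞
  ε : ∀ j, (∀ i, X i) → Y j → ℝ≥0∞
  nb : κ → Finset ι
  mγ : ∀ i, Measurable (γ i)
  mε : ∀ j, Measurable fun p : (∀ i, X i) × Y j => ε j p.1 p.2
  hγ : ∀ i, ∫⁻ x, γ i x ∂μ i = 1
  hε : ∀ j x, ∫⁻ y, ε j x y ∂ν j = 1
  dε : ∀ j y, DependsOn (fun x => ε j x y) (nb j : Set ι)

variable {μ ν}

/-- the density -/
noncomputable def Tilt.dens (t : Tilt (X := X) (Y := Y) μ ν) (x : ∀ i, X i) (y : ∀ j, Y j) : ℝ≥0∞ :=
  (∏ i, t.γ i (x i)) * ∏ j, t.ε j x (y j)

/-- mean of `f` under the tilted law -/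
noncomputable def Tilt.E (t : Tilt (X := X) (Y := Y) μ ν)
    (f : (∀ i, X i) → (∀ j, Y j) → ℝ≥0∞) : ℝ≥0∞ :=
  ∫⁻ x, ∫⁻ y, t.dens x y * f x y ∂Measure.pi ν ∂Measure.pi μ

/-- `f` is a function of the gates in `A` and of the sections in `J` -/
structure Loc {β : Type*} [MeasurableSpace β] (A : Finset ι) (J : Finset κ)
    (f : (∀ i, X i) → (∀ j, Y j) → β) : Prop where
  meas : Measurable fun p : (∀ i, X i) × (∀ j, Y j) => f p.1 p.2
  dx : ∀ y, DependsOn (fun x => f x y) (A : Set ι)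
  dy : ∀ x, DependsOn (f x) (J : Set κ)

theorem Loc.mul {A B : Finset ι} {J K : Finset κ} {f g : (∀ i, X i) → (∀ j, Y j) → ℝ≥0∞}
    (hf : Loc A J f) (hg : Loc B K g) : Loc (A ∪ B) (J ∪ K) (fun x y => f x y * g x y) where
  meas := hf.meas.mul hg.meas
  dx y x x' h := by
    have h1 := ap (hf.dx y) x x' fun i hi => h i (by simp at hi ⊢; exact Or.inl hi)
    have h2 := ap (hg.dx y) x x' fun i hi => h i (by simp at hi ⊢; exact Or.inr hi)
    simp only at h1 h2 ⊢
    rw [h1, h2]
  dy x y y' h := by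
    have h1 := ap (hf.dy x) y y' fun i hi => h i (by simp at hi ⊢; exact Or.inl hi)
    have h2 := ap (hg.dy x) y y' fun i hi => h i (by simp at hi ⊢; exact Or.inr hi)
    simp only at h1 h2 ⊢
    rw [h1, h2]

theorem Loc.comp {β β' : Type*} [MeasurableSpace β] [MeasurableSpace β'] {A : Finset ι}
    {J : Finset κ} {f : (∀ i, X i) → (∀ j, Y j) → β} (hf : Loc A J f) {φ : β → β'}
    (hφ : Measurable φ) : Loc A J (fun x y => φ (f x y)) where
  meas := hφ.comp hf.meas
  dx y _ _ h := congrArg φ (hf.dx y h)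
  dy x _ _ h := congrArg φ (hf.dy x h)

theorem Loc.mono {β : Type*} [MeasurableSpace β] {A B : Finset ι} {J K : Finset κ}
    {f : (∀ i, X i) → (∀ j, Y j) → β}
    (hf : Loc A J f) (hA : A ⊆ B) (hJ : J ⊆ K) : Loc B K f where
  meas := hf.meas
  dx y := (hf.dx y).mono (by exact_mod_cast hA)
  dy x := (hf.dy x).mono (by exact_mod_cast hJ)

theorem Loc.one : Loc (X := X) (Y := Y) (∅ : Finset ι) (∅ : Finset κ)
    (fun _ _ => (1 : ℝ≥0∞)) where
  meas := measurable_const
  dx _ _ _ _ := rfl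
  dy _ _ _ _ := rfl

/-- inner mean of a local function: only its own sections matter -/
theorem Tilt.inner (t : Tilt (X := X) (Y := Y) μ ν) {A : Finset ι} {J : Finset κ}
    {f : (∀ i, X i) → (∀ j, Y j) → ℝ≥0∞} (hf : Loc A J f) (x : ∀ i, X i) :
    ∫⁻ y, (∏ j, t.ε j x (y j)) * f x y ∂Measure.pi ν
      = ∫⁻ y, (∏ j ∈ J, t.ε j x (y j)) * f x y ∂Measure.pi ν := by
  have mε : ∀ j, Measurable (t.ε j x) := fun j => (t.mε j).comp measurable_prodMk_left
  have mp : ∀ S : Finset κ, Measurable fun y : ∀ j, Y j => ∏ j ∈ S, t.ε j x (y j) :=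
    fun S => Finset.measurable_prod _ fun j _ => (mε j).comp (measurable_pi_apply j)
  have mf : Measurable (f x) := hf.meas.comp measurable_prodMk_left
  have hsplit : ∀ y : ∀ j, Y j, (∏ j, t.ε j x (y j)) * f x y
      = ((∏ j ∈ J, t.ε j x (y j)) * f x y) * ∏ j ∈ Jᶜ, t.ε j x (y j) := fun y => by
    rw [← Finset.prod_mul_prod_compl J]
    ring
  simp_rw [hsplit]
  rw [lintegral_mul_of_dependsOn ν (A := J) (B := Jᶜ)
    (F := fun y => (∏ j ∈ J, t.ε j x (y j)) * f x y) (G := fun y => ∏ j ∈ Jᶜ, t.ε j x (y j))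
    disjoint_compl_right ((mp J).mul mf) (mp Jᶜ)]
  · rw [lintegral_prod_one ν Jᶜ (fun j => t.ε j x) mε (fun j _ => t.hε j x), mul_one]
  · intro y y' h
    have h2 := ap (hf.dy x) y y' h
    simp only at h2 ⊢
    rw [h2, Finset.prod_congr rfl fun j hj => by rw [h j (by simpa using hj)]]
  · intro y y' h
    exact Finset.prod_congr rfl fun j hj => by rw [h j (by simpa using hj)]

/-- the local form of the mean -/
theorem Tilt.E_eq (t : Tilt (X := X) (Y := Y) μ ν) {A : Finset ι} {J : Finset κ}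
    {f : (∀ i, X i) → (∀ j, Y j) → ℝ≥0∞} (hf : Loc A J f) (hnb : ∀ j ∈ J, t.nb j ⊆ A) :
    t.E f = ∫⁻ x, (∏ i ∈ A, t.γ i (x i)) *
      ∫⁻ y, (∏ j ∈ J, t.ε j x (y j)) * f x y ∂Measure.pi ν ∂Measure.pi μ := by
  have mu : Measurable fun p : (∀ i, X i) × (∀ j, Y j) => ∏ j ∈ J, t.ε j p.1 (p.2 j) :=
    Finset.measurable_prod _ fun j _ =>
      (t.mε j).comp (measurable_fst.prodMk ((measurable_pi_apply j).comp measurable_snd))
  have mG : Measurable fun x => ∫⁻ y, (∏ j ∈ J, t.ε j x (y j)) * f x y ∂Measure.pi ν :=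
    (mu.mul hf.meas).lintegral_prod_right'
  have mp : ∀ S : Finset ι, Measurable fun x : ∀ i, X i => ∏ i ∈ S, t.γ i (x i) :=
    fun S => Finset.measurable_prod _ fun i _ => (t.mγ i).comp (measurable_pi_apply i)
  have dG : DependsOn (fun x => ∫⁻ y, (∏ j ∈ J, t.ε j x (y j)) * f x y ∂Measure.pi ν)
      (A : Set ι) := by
    intro x x' h
    apply lintegral_congr
    intro y
    have h1 : f x y = f x' y := ap (hf.dx y) x x' h
    rw [h1, Finset.prod_congr rfl fun j hj => ap (t.dε j (y j)) x x'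
      fun i hi => h i (by exact_mod_cast hnb j hj (by exact_mod_cast hi))]
  have h1 : t.E f = ∫⁻ x, ((∏ i ∈ A, t.γ i (x i)) *
      ∫⁻ y, (∏ j ∈ J, t.ε j x (y j)) * f x y ∂Measure.pi ν) * ∏ i ∈ Aᶜ, t.γ i (x i)
        ∂Measure.pi μ := by
    unfold Tilt.E Tilt.dens
    apply lintegral_congr
    intro x
    rw [← t.inner hf x]
    have : ∀ y : ∀ j, Y j, (∏ i, t.γ i (x i)) * (∏ j, t.ε j x (y j)) * f x y
        = (∏ i, t.γ i (x i)) * ((∏ j, t.ε j x (y j)) * f x y) := fun y => by ring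
    simp_rw [this]
    have mε : ∀ j, Measurable (t.ε j x) := fun j => (t.mε j).comp measurable_prodMk_left
    rw [lintegral_const_mul _ (f := fun y => (∏ j, t.ε j x (y j)) * f x y)
      (((Finset.measurable_prod _ fun j _ =>
      (mε j).comp (measurable_pi_apply j))).mul (hf.meas.comp measurable_prodMk_left))]
    rw [← Finset.prod_mul_prod_compl A]
    ring
  rw [h1, lintegral_mul_of_dependsOn μ (A := A) (B := Aᶜ)
    (F := fun x => (∏ i ∈ A, t.γ i (x i)) *
      ∫⁻ y, (∏ j ∈ J, t.ε j x (y j)) * f x y ∂Measure.pi ν)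
    (G := fun x => ∏ i ∈ Aᶜ, t.γ i (x i)) disjoint_compl_right
    ((mp A).mul mG) (mp Aᶜ)]
  · rw [lintegral_prod_one μ Aᶜ t.γ t.mγ (fun i _ => t.hγ i), mul_one]
  · intro x x' h
    have h2 := dG h
    simp only at h2 ⊢
    rw [h2, Finset.prod_congr rfl fun i hi => by rw [h i (by simpa using hi)]]
  · intro x x' h
    exact Finset.prod_congr rfl fun i hi => by rw [h i (by simpa using hi)]

theorem Tilt.E_one (t : Tilt (X := X) (Y := Y) μ ν) : t.E (fun _ _ => 1) = 1 := by
  rw [t.E_eq Loc.one (by simp)]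
  simp

/-- EXACT INDEPENDENCE of functions of disjoint blocks under the tilted law -/
theorem Tilt.E_mul (t : Tilt (X := X) (Y := Y) μ ν) {A B : Finset ι} {J K : Finset κ}
    {f g : (∀ i, X i) → (∀ j, Y j) → ℝ≥0∞} (hf : Loc A J f) (hg : Loc B K g)
    (hAB : Disjoint A B) (hJK : Disjoint J K)
    (hnA : ∀ j ∈ J, t.nb j ⊆ A) (hnB : ∀ j ∈ K, t.nb j ⊆ B) :
    t.E (fun x y => f x y * g x y) = t.E f * t.E g := by
  have hfg := hf.mul hg
  rw [t.E_eq hfg (fun j hj => by
    rcases Finset.mem_union.mp hj with h | h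
    · exact (hnA j h).trans Finset.subset_union_left
    · exact (hnB j h).trans Finset.subset_union_right), t.E_eq hf hnA, t.E_eq hg hnB]
  have mu : ∀ J : Finset κ, Measurable fun p : (∀ i, X i) × (∀ j, Y j) =>
      ∏ j ∈ J, t.ε j p.1 (p.2 j) := fun J =>
    Finset.measurable_prod _ fun j _ =>
      (t.mε j).comp (measurable_fst.prodMk ((measurable_pi_apply j).comp measurable_snd))
  have mG : ∀ (J : Finset κ) {f : (∀ i, X i) → (∀ j, Y j) → ℝ≥0∞} {A : Finset ι},
      Loc A J f → Measurable fun x => ∫⁻ y, (∏ j ∈ J, t.ε j x (y j)) * f x y ∂Measure.pi ν :=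
    fun J f A hf => ((mu J).mul hf.meas).lintegral_prod_right'
  have mp : ∀ S : Finset ι, Measurable fun x : ∀ i, X i => ∏ i ∈ S, t.γ i (x i) :=
    fun S => Finset.measurable_prod _ fun i _ => (t.mγ i).comp (measurable_pi_apply i)
  have dG : ∀ (J : Finset κ) {f : (∀ i, X i) → (∀ j, Y j) → ℝ≥0∞} {A : Finset ι},
      Loc A J f → (∀ j ∈ J, t.nb j ⊆ A) →
      DependsOn (fun x => ∫⁻ y, (∏ j ∈ J, t.ε j x (y j)) * f x y ∂Measure.pi ν)
      (A : Set ι) := by
    intro J f A hf hnb x x' h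
    apply lintegral_congr
    intro y
    have h1 : f x y = f x' y := ap (hf.dx y) x x' h
    rw [h1, Finset.prod_congr rfl fun j hj => ap (t.dε j (y j)) x x'
      fun i hi => h i (by exact_mod_cast hnb j hj (by exact_mod_cast hi))]
  have key : ∀ x : ∀ i, X i, ∫⁻ y, (∏ j ∈ J ∪ K, t.ε j x (y j)) * (f x y * g x y) ∂Measure.pi ν
      = (∫⁻ y, (∏ j ∈ J, t.ε j x (y j)) * f x y ∂Measure.pi ν)
        * ∫⁻ y, (∏ j ∈ K, t.ε j x (y j)) * g x y ∂Measure.pi ν := by
    intro x
    have mε : ∀ j, Measurable (t.ε j x) := fun j => (t.mε j).comp measurable_prodMk_left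
    have mpp : ∀ S : Finset κ, Measurable fun y : ∀ j, Y j => ∏ j ∈ S, t.ε j x (y j) :=
      fun S => Finset.measurable_prod _ fun j _ => (mε j).comp (measurable_pi_apply j)
    have mf : Measurable (f x) := hf.meas.comp measurable_prodMk_left
    have mg : Measurable (g x) := hg.meas.comp measurable_prodMk_left
    have hsplit : ∀ y : ∀ j, Y j, (∏ j ∈ J ∪ K, t.ε j x (y j)) * (f x y * g x y)
        = ((∏ j ∈ J, t.ε j x (y j)) * f x y) * ((∏ j ∈ K, t.ε j x (y j)) * g x y) := fun y => by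
      rw [Finset.prod_union hJK]
      ring
    simp_rw [hsplit]
    rw [lintegral_mul_of_dependsOn ν (F := fun y => (∏ j ∈ J, t.ε j x (y j)) * f x y)
      (G := fun y => (∏ j ∈ K, t.ε j x (y j)) * g x y) hJK ((mpp J).mul mf) ((mpp K).mul mg)]
    · intro y y' h
      have h2 := ap (hf.dy x) y y' h
      simp only at h2 ⊢
      rw [h2, Finset.prod_congr rfl fun j hj => by rw [h j (by simpa using hj)]]
    · intro y y' h
      have h2 := ap (hg.dy x) y y' h
      simp only at h2 ⊢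
      rw [h2, Finset.prod_congr rfl fun j hj => by rw [h j (by simpa using hj)]]
  simp_rw [key]
  have hsplit : ∀ x : ∀ i, X i, (∏ i ∈ A ∪ B, t.γ i (x i)) *
      ((∫⁻ y, (∏ j ∈ J, t.ε j x (y j)) * f x y ∂Measure.pi ν)
        * ∫⁻ y, (∏ j ∈ K, t.ε j x (y j)) * g x y ∂Measure.pi ν)
      = ((∏ i ∈ A, t.γ i (x i)) * ∫⁻ y, (∏ j ∈ J, t.ε j x (y j)) * f x y ∂Measure.pi ν)
        * ((∏ i ∈ B, t.γ i (x i)) * ∫⁻ y, (∏ j ∈ K, t.ε j x (y j)) * g x y ∂Measure.pi ν) := by
    intro x
    rw [Finset.prod_union hAB]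
    ring
  simp_rw [hsplit]
  rw [lintegral_mul_of_dependsOn μ
    (F := fun x => (∏ i ∈ A, t.γ i (x i)) *
      ∫⁻ y, (∏ j ∈ J, t.ε j x (y j)) * f x y ∂Measure.pi ν)
    (G := fun x => (∏ i ∈ B, t.γ i (x i)) *
      ∫⁻ y, (∏ j ∈ K, t.ε j x (y j)) * g x y ∂Measure.pi ν) hAB
    ((mp A).mul (mG J hf)) ((mp B).mul (mG K hg))]
  · intro x x' h
    have h2 := dG J hf hnA h
    simp only at h2 ⊢
    rw [h2, Finset.prod_congr rfl fun i hi => by rw [h i (by simpa using hi)]]
  · intro x x' h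
    have h2 := dG K hg hnB h
    simp only at h2 ⊢
    rw [h2, Finset.prod_congr rfl fun i hi => by rw [h i (by simpa using hi)]]

/-- the tilted law as a measure -/
noncomputable def Tilt.law (t : Tilt (X := X) (Y := Y) μ ν) :
    Measure ((∀ i, X i) × (∀ j, Y j)) :=
  ((Measure.pi μ).prod (Measure.pi ν)).withDensity fun p => t.dens p.1 p.2

theorem Tilt.dens_meas (t : Tilt (X := X) (Y := Y) μ ν) :
    Measurable fun p : (∀ i, X i) × (∀ j, Y j) => t.dens p.1 p.2 := by
  unfold Tilt.dens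
  exact (Finset.measurable_prod _ fun i _ =>
      (t.mγ i).comp ((measurable_pi_apply i).comp measurable_fst)).mul
    (Finset.measurable_prod _ fun j _ =>
      (t.mε j).comp (measurable_fst.prodMk ((measurable_pi_apply j).comp measurable_snd)))

theorem Tilt.lintegral_law (t : Tilt (X := X) (Y := Y) μ ν)
    {f : (∀ i, X i) → (∀ j, Y j) → ℝ≥0∞}
    (hf : Measurable fun p : (∀ i, X i) × (∀ j, Y j) => f p.1 p.2) :
    ∫⁻ p, f p.1 p.2 ∂t.law = t.E f := by
  rw [Tilt.law, lintegral_withDensity_eq_lintegral_mul _ t.dens_meas hf, Tilt.E,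
    lintegral_prod _ (t.dens_meas.mul hf).aemeasurable]
  rfl

instance Tilt.prob (t : Tilt (X := X) (Y := Y) μ ν) : IsProbabilityMeasure t.law := by
  constructor
  have h := t.lintegral_law (f := fun _ _ => 1) measurable_const
  rw [t.E_one, lintegral_one] at h
  exact h

/-- functions of disjoint blocks (sections together with their gates) are independent under the
tilted law -/
theorem Tilt.indepFun (t : Tilt (X := X) (Y := Y) μ ν) {β β' : Type*} [MeasurableSpace β]
    [MeasurableSpace β'] {A B : Finset ι} {J K : Finset κ}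
    {f : (∀ i, X i) → (∀ j, Y j) → β} {g : (∀ i, X i) → (∀ j, Y j) → β'}
    (hf : Loc A J f) (hg : Loc B K g)
    (hAB : Disjoint A B) (hJK : Disjoint J K)
    (hnA : ∀ j ∈ J, t.nb j ⊆ A) (hnB : ∀ j ∈ K, t.nb j ⊆ B) :
    IndepFun (fun p : (∀ i, X i) × (∀ j, Y j) => f p.1 p.2) (fun p => g p.1 p.2) t.law := by
  rw [indepFun_iff_measure_inter_preimage_eq_mul]
  intro s u hs hu
  have hf' := hf.comp (φ := fun b => s.indicator (fun _ => (1 : ℝ≥0∞)) b)
    (measurable_const.indicator hs)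
  have hg' := hg.comp (φ := fun b => u.indicator (fun _ => (1 : ℝ≥0∞)) b)
    (measurable_const.indicator hu)
  have h := t.E_mul hf' hg' hAB hJK hnA hnB
  have l1 := t.lintegral_law (f := fun x y => s.indicator (fun _ => (1 : ℝ≥0∞)) (f x y))
    hf'.meas
  have l2 := t.lintegral_law (f := fun x y => u.indicator (fun _ => (1 : ℝ≥0∞)) (g x y))
    hg'.meas
  have l3 := t.lintegral_law (f := fun x y => s.indicator (fun _ => (1 : ℝ≥0∞)) (f x y) *
    u.indicator (fun _ => (1 : ℝ≥0∞)) (g x y)) (hf'.meas.mul hg'.meas)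
  rw [← l1, ← l2, ← l3] at h
  have e1 : ∀ p : (∀ i, X i) × (∀ j, Y j), s.indicator (fun _ => (1 : ℝ≥0∞)) (f p.1 p.2)
      = ((fun p : (∀ i, X i) × (∀ j, Y j) => f p.1 p.2) ⁻¹' s).indicator (fun _ => 1) p :=
    fun p => rfl
  have e2 : ∀ p : (∀ i, X i) × (∀ j, Y j), u.indicator (fun _ => (1 : ℝ≥0∞)) (g p.1 p.2)
      = ((fun p : (∀ i, X i) × (∀ j, Y j) => g p.1 p.2) ⁻¹' u).indicator (fun _ => 1) p :=
    fun p => rfl
  have e3 : ∀ p : (∀ i, X i) × (∀ j, Y j), s.indicator (fun _ => (1 : ℝ≥0∞)) (f p.1 p.2)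
      * u.indicator (fun _ => (1 : ℝ≥0∞)) (g p.1 p.2)
      = (((fun p : (∀ i, X i) × (∀ j, Y j) => f p.1 p.2) ⁻¹' s) ∩
        ((fun p : (∀ i, X i) × (∀ j, Y j) => g p.1 p.2) ⁻¹' u)).indicator (fun _ => 1) p := by
    intro p
    by_cases h1 : f p.1 p.2 ∈ s <;> by_cases h2 : g p.1 p.2 ∈ u <;>
      simp [Set.indicator, h1, h2]
  simp_rw [e3] at h
  simp_rw [e1, e2] at h
  rw [lintegral_indicator_const ((hf.meas hs).inter (hg.meas hu)),
    lintegral_indicator_const (hf.meas hs), lintegral_indicator_const (hg.meas hu)] at h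
  simpa using h

end tilt

end Vale.Agent.P148.R2.H172
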